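import Vale.Agent.P359.Gap.BottomCore
import Vale.Agent.P359.Gap.Bottom.Inv

/-!
# P359 gap, module Bottom: the bound on marginals gives the bound on the quadratic form
-/

namespace Vale.Agent.P359.Gap

/-- The bottom eigenspace gives marginals of low energy. -/
theorem bottom : BottomTarget :=
  bottom_of fun _ _ _ hQ _ ha hv h => exists_data hQ ha hv h

end Vale.Agent.P359.Gap
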