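import Vale.Agent.P359.Gap.Targets
import Vale.Agent.P359.Avg
import Mathlib.RingTheory.Polynomial.UniqueFactorization
import Mathlib.RingTheory.Coprime.Lemmas
import Mathlib.Algebra.MvPolynomial.Division
import Mathlib.Algebra.MvPolynomial.NoZeroDivisors

/-!
# P359 gap: the zero states at Laughlin flux

A zero state has every pair component zero, so its polynomial vanishes to third order on every
diagonal; it is then divisible by the Laughlin polynomial, and the degree bound leaves a constant.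
-/

namespace Vale.Agent.P359.Gap

open MvPolynomial Matrix

noncomputable section

variable {N Q : ℕ}

/-! ### One pair -/

/-- The pairs of total level `m` weighted by their difference. -/
def topVec (Q m : ℕ) (τ : Fin 2 → Fin (Q + 1)) : ℂ :=
  if (τ 0 : ℕ) + τ 1 = m then
    (((wt Q (τ 0) * wt Q (τ 1) : ℝ)) : ℂ) * (((τ 1 : ℕ) : ℂ) - (τ 0 : ℕ)) else 0

lemma coef_topVec (m : ℕ) {k l : ℕ} (hk : k ≤ Q) (hl : l ≤ Q) :
    coef (topVec Q m) k l = if k + l = m then (l : ℂ) - k else 0 := by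
  have hne : (((wt Q k * wt Q l : ℝ)) : ℂ) ≠ 0 := by
    exact_mod_cast (mul_pos (wt_pos hk) (wt_pos hl)).ne'
  rw [coef, dif_pos ⟨hk, hl⟩]
  have hval : topVec Q m ![⟨k, by omega⟩, ⟨l, by omega⟩] =
      if k + l = m then (((wt Q k * wt Q l : ℝ)) : ℂ) * ((l : ℂ) - k) else 0 := rfl
  rw [hval]
  split_ifs with h
  · rw [mul_div_cancel_left₀ _ hne]
  · rw [zero_div]

lemma casimir_topVec (m : ℕ) :
    casimir Q *ᵥ topVec Q m = ((Q : ℂ) * ((Q : ℂ) - 1)) • topVec Q m := by
  funext τ
  have e : τ = ![τ 0, τ 1] := by funext i; fin_cases i <;> rfl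
  rw [e, casimir_mulVec, Pi.smul_apply, smul_eq_mul, coef_spec (topVec Q m), cop]
  have hk : (τ 0 : ℕ) ≤ Q := by omega
  have hl : (τ 1 : ℕ) ≤ Q := by omega
  generalize (τ 0 : ℕ) = k at hk ⊢
  generalize (τ 1 : ℕ) = l at hl ⊢
  have e1 : ((((Q : ℝ) - k) * l : ℝ) : ℂ) * coef (topVec Q m) (k + 1) (l - 1) =
      ((((Q : ℝ) - k) * l : ℝ) : ℂ) * if k + l = m then (l : ℂ) - k - 2 else 0 := by
    rcases l with _ | l
    · simp
    rcases hk.lt_or_eq with hk' | rfl
    · rw [coef_topVec m (show k + 1 ≤ Q by omega) (show l + 1 - 1 ≤ Q by omega)]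
      congr 1
      simp only [add_tsub_cancel_right, show k + 1 + l = k + (l + 1) by omega]
      split_ifs
      · push_cast; ring
      · rfl
    · simp
  have e2 : (((k : ℝ) * ((Q : ℝ) - l) : ℝ) : ℂ) * coef (topVec Q m) (k - 1) (l + 1) =
      (((k : ℝ) * ((Q : ℝ) - l) : ℝ) : ℂ) * if k + l = m then (l : ℂ) - k + 2 else 0 := by
    rcases k with _ | k
    · simp
    rcases hl.lt_or_eq with hl' | rfl
    · rw [coef_topVec m (show k + 1 - 1 ≤ Q by omega) (show l + 1 ≤ Q by omega)]
      congr 1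
      simp only [add_tsub_cancel_right, show k + (l + 1) = k + 1 + l by omega]
      split_ifs
      · push_cast; ring
      · rfl
    · simp
  rw [e1, e2, coef_topVec m hk hl]
  split_ifs
  · push_cast; ring
  · simp

/-- The weighted coefficient of a pair slice. -/
def pairCoeff (s : (Fin 2 → Fin (Q + 1)) → ℂ) (τ : Fin 2 → Fin (Q + 1)) : ℂ :=
  s τ * (((wt Q (τ 0) * wt Q (τ 1) : ℝ)) : ℂ)

/-- A vector killed by the projection has no first moment at any total level. -/
lemma first_moment {s : (Fin 2 → Fin (Q + 1)) → ℂ} (h : pairProj Q *ᵥ s = 0) (m : ℕ) :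
    ∑ τ : Fin 2 → Fin (Q + 1), (if (τ 0 : ℕ) + τ 1 = m then
      pairCoeff s τ * (((τ 1 : ℕ) : ℂ) - (τ 0 : ℕ)) else 0) = 0 := by
  have hfix := proj_fix (casimir_topVec (Q := Q) m)
  have h1 : star (topVec Q m) ⬝ᵥ s = 0 := by
    conv_lhs => rw [← hfix, star_mulVec, ← star_eq_conjTranspose, pairProj_star]
    rw [← dotProduct_mulVec, h, dotProduct_zero]
  refine Eq.trans ?_ h1
  rw [dotProduct]
  refine Finset.sum_congr rfl fun τ _ => ?_
  simp only [Pi.star_apply, topVec, pairCoeff, apply_ite (star : ℂ → ℂ), star_zero, ite_mul,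
    zero_mul, Complex.star_def, map_mul, map_sub, Complex.conj_ofReal, map_natCast]
  split_ifs
  · ring
  · rfl

variable {A : Type} [AddCommGroup A] [Module ℂ A]

/-- An antisymmetric slice sums to zero against symmetric weights. -/
lemma sum_symm_weight {s : (Fin 2 → Fin (Q + 1)) → ℂ}
    (hs : ∀ a b, s ![a, b] = -s ![b, a]) (w : (Fin 2 → Fin (Q + 1)) → A)
    (hw : ∀ a b, w ![a, b] = w ![b, a]) :
    ∑ τ, pairCoeff s τ • w τ = 0 := by
  have e : ∀ τ : Fin 2 → Fin (Q + 1),
      pairCoeff s ![τ 1, τ 0] • w ![τ 1, τ 0] = -(pairCoeff s τ • w τ) := by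
    intro τ
    have h : τ = ![τ 0, τ 1] := by funext i; fin_cases i <;> rfl
    conv_rhs => rw [h]
    rw [hw (τ 1) (τ 0)]
    simp only [pairCoeff, Matrix.cons_val_zero, Matrix.cons_val_one, hs (τ 1) (τ 0)]
    rw [← neg_smul]
    congr 1
    push_cast
    ring
  have hflip : Function.Involutive fun τ : Fin 2 → Fin (Q + 1) => ![τ 1, τ 0] := fun τ => by
    funext i; fin_cases i <;> rfl
  have h2 : ∑ τ, pairCoeff s τ • w τ = -∑ τ, pairCoeff s τ • w τ := by
    rw [← Finset.sum_neg_distrib, ← Finset.sum_congr rfl fun τ _ => e τ]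
    exact (Equiv.sum_comp hflip.toPerm fun τ => pairCoeff s τ • w τ).symm
  have h3 : (2 : ℂ) • ∑ τ, pairCoeff s τ • w τ = 0 := by
    rw [two_smul]; exact add_eq_zero_iff_eq_neg.2 h2
  exact (smul_eq_zero.1 h3).resolve_left two_ne_zero

/-- The moments up to the second vanish against functions of the total level. -/
lemma moments {s : (Fin 2 → Fin (Q + 1)) → ℂ} (hs : ∀ a b, s ![a, b] = -s ![b, a])
    (h : pairProj Q *ᵥ s = 0) (W : ℕ → A) :
    (∑ τ : Fin 2 → Fin (Q + 1), pairCoeff s τ • W ((τ 0 : ℕ) + τ 1)) = 0 ∧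
    (∑ τ : Fin 2 → Fin (Q + 1), (pairCoeff s τ * ((τ 1 : ℕ) : ℂ)) • W ((τ 0 : ℕ) + τ 1)) = 0 ∧
    (∑ τ : Fin 2 → Fin (Q + 1),
      (pairCoeff s τ * (((τ 1 : ℕ).choose 2 : ℕ) : ℂ)) • W ((τ 0 : ℕ) + τ 1)) = 0 := by
  have h0 : ∀ W : ℕ → A,
      ∑ τ : Fin 2 → Fin (Q + 1), pairCoeff s τ • W ((τ 0 : ℕ) + τ 1) = 0 := fun W =>
    sum_symm_weight hs _ fun a b => by simp [add_comm]
  have h1 : ∀ W : ℕ → A, ∑ τ : Fin 2 → Fin (Q + 1),
      (pairCoeff s τ * (((τ 1 : ℕ) : ℂ) - (τ 0 : ℕ))) • W ((τ 0 : ℕ) + τ 1) = 0 := by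
    intro W
    rw [← Finset.sum_fiberwise_of_maps_to (t := Finset.range (2 * Q + 1))
      (g := fun τ : Fin 2 → Fin (Q + 1) => (τ 0 : ℕ) + τ 1)
      fun τ _ => Finset.mem_range.2 (by have := (τ 0).isLt; have := (τ 1).isLt; omega)]
    refine Finset.sum_eq_zero fun m _ => ?_
    rw [Finset.sum_congr rfl fun τ hτ => by rw [(Finset.mem_filter.1 hτ).2], ← Finset.sum_smul,
      Finset.sum_filter, first_moment h m, zero_smul]
  have h2 : ∀ W : ℕ → A, ∑ τ : Fin 2 → Fin (Q + 1),
      (pairCoeff s τ * (((τ 1 : ℕ) : ℂ) - (τ 0 : ℕ)) ^ 2) • W ((τ 0 : ℕ) + τ 1) = 0 := by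
    intro W
    simp only [← smul_smul]
    refine sum_symm_weight hs _ fun a b => ?_
    simp only [Matrix.cons_val_zero, Matrix.cons_val_one, add_comm (b : ℕ) a]
    congr 1
    ring
  refine ⟨h0 W, ?_, ?_⟩
  · have hA := h1 fun m => (1 / 2 : ℂ) • W m
    have hB := h0 fun m => ((m : ℂ) / 2) • W m
    simp only [smul_smul] at hA hB
    rw [← add_zero (0 : A)]
    conv_rhs => arg 1; rw [← hA]
    conv_rhs => arg 2; rw [← hB]
    rw [← Finset.sum_add_distrib]
    refine Finset.sum_congr rfl fun τ _ => ?_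
    rw [← add_smul]
    congr 1
    push_cast
    ring
  · have hA := h2 fun m => (1 / 8 : ℂ) • W m
    have hB := h1 fun m => (((m : ℂ) - 1) / 4) • W m
    have hC := h0 fun m => (((m : ℂ) ^ 2 - 2 * m) / 8) • W m
    simp only [smul_smul] at hA hB hC
    rw [← add_zero (0 : A)]
    conv_rhs => arg 1; rw [← hA]
    conv_rhs => arg 2; rw [← add_zero (0 : A)]
    conv_rhs => arg 2; arg 1; rw [← hB]
    conv_rhs => arg 2; arg 2; rw [← hC]
    rw [← Finset.sum_add_distrib, ← Finset.sum_add_distrib]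
    refine Finset.sum_congr rfl fun τ _ => ?_
    rw [← add_smul, ← add_smul]
    congr 1
    rw [Nat.cast_choose_two]
    push_cast
    ring

/-- The expansion of a power to second order. -/
lemma cube_dvd_pow_sub {R : Type} [CommRing R] (x h : R) :
    ∀ l : ℕ, h ^ 3 ∣ (x + h) ^ l -
      (x ^ l + (l : R) * x ^ (l - 1) * h + ((l.choose 2 : ℕ) : R) * x ^ (l - 2) * h ^ 2)
  | 0 => by simp
  | 1 => by simp
  | 2 => ⟨0, by simp; ring⟩
  | l + 3 => by
    obtain ⟨r, hr⟩ := cube_dvd_pow_sub x h (l + 2)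
    refine ⟨(x + h) * r + (((l + 2).choose 2 : ℕ) : R) * x ^ l, ?_⟩
    simp only [show l + 2 - 1 = l + 1 by omega, show l + 2 - 2 = l by omega,
      show l + 3 - 1 = l + 2 by omega, show l + 3 - 2 = l + 1 by omega] at hr ⊢
    rw [show (l + 3).choose 2 = l + 2 + (l + 2).choose 2 by
      rw [Nat.choose_succ_succ' (l + 2) 1, Nat.choose_one_right]]
    push_cast
    push_cast at hr
    linear_combination (x + h) * hr

/-! ### The polynomial of a state -/

/-- The polynomial of a state. -/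
def statePoly (φ : (Fin N → Fin (Q + 1)) → ℂ) : MvPolynomial (Fin N) ℂ :=
  ∑ σ, monomial (expo σ) (φ σ * wtProd σ)

lemma expo_injective : Function.Injective (expo (N := N) (Q := Q)) := fun σ ρ h =>
  funext fun i => Fin.ext (by simpa [expo_apply] using DFunLike.congr_fun h i)

lemma coeff_statePoly (φ : (Fin N → Fin (Q + 1)) → ℂ) (σ : Fin N → Fin (Q + 1)) :
    coeff (expo σ) (statePoly φ) = φ σ * wtProd σ := by
  rw [statePoly, coeff_sum, Finset.sum_eq_single σ]
  · simp
  · intro ρ _ hρ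
    rw [coeff_monomial, if_neg fun e => hρ (expo_injective e)]
  · simp

lemma degreeOf_statePoly (φ : (Fin N → Fin (Q + 1)) → ℂ) (i : Fin N) :
    degreeOf i (statePoly φ) ≤ Q := by
  rw [degreeOf_le_iff]
  intro m hm
  rw [mem_support_iff, statePoly, coeff_sum] at hm
  obtain ⟨σ, -, hσ⟩ := Finset.exists_ne_zero_of_sum_ne_zero hm
  rw [coeff_monomial] at hσ
  split_ifs at hσ with e
  · rw [← e, expo_apply]; omega
  · exact absurd rfl hσ

/-- A state whose slice has no top component and is antisymmetric vanishes to third order. -/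
theorem cube_dvd_statePoly {φ : (Fin N → Fin (Q + 1)) → ℂ} {p q : Fin N} (hpq : p ≠ q)
    (hs : ∀ σ a b, slice p q φ σ ![a, b] = -slice p q φ σ ![b, a])
    (h : ∀ σ, pairProj Q *ᵥ slice p q φ σ = 0) : (X q - X p) ^ 3 ∣ statePoly φ := by
  set d : MvPolynomial (Fin N) ℂ := X q - X p with hd
  have key : ∀ σ : Fin N → Fin (Q + 1), d ^ 3 ∣ ∑ τ : Fin 2 → Fin (Q + 1),
      monomial (expo (Function.update (Function.update σ p (τ 0)) q (τ 1)))
        (φ (Function.update (Function.update σ p (τ 0)) q (τ 1)) *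
          wtProd (Function.update (Function.update σ p (τ 0)) q (τ 1))) := by
    intro σ
    set s := slice p q φ σ
    set Z := monomial (((expo σ).erase p).erase q)
      (∏ i ∈ (Finset.univ.erase q).erase p, ((wt Q (σ i : ℕ) : ℝ) : ℂ))
    have e : ∀ τ : Fin 2 → Fin (Q + 1),
        monomial (expo (Function.update (Function.update σ p (τ 0)) q (τ 1)))
          (φ (Function.update (Function.update σ p (τ 0)) q (τ 1)) *
            wtProd (Function.update (Function.update σ p (τ 0)) q (τ 1))) =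
        pairCoeff s τ • (Z * X p ^ (τ 0 : ℕ) * X q ^ (τ 1 : ℕ)) := by
      intro τ
      rw [expo_update hpq, wtProd_update hpq, X_pow_eq_monomial, X_pow_eq_monomial,
        monomial_mul, monomial_mul, smul_monomial, expo2]
      congr 1
      simp only [pairCoeff, s, slice, smul_eq_mul]
      ring
    rw [Finset.sum_congr rfl fun τ _ => e τ]
    obtain ⟨m0, m1, m2⟩ := moments (A := MvPolynomial (Fin N) ℂ) (hs σ) (h σ)
      fun m => Z * X p ^ m
    obtain ⟨-, m1', -⟩ := moments (A := MvPolynomial (Fin N) ℂ) (hs σ) (h σ)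
      fun m => Z * X p ^ (m - 1) * d
    obtain ⟨-, -, m2'⟩ := moments (A := MvPolynomial (Fin N) ℂ) (hs σ) (h σ)
      fun m => Z * X p ^ (m - 2) * d ^ 2
    have hsum : ∑ τ : Fin 2 → Fin (Q + 1), pairCoeff s τ • (Z * X p ^ (τ 0 : ℕ) *
        (X p ^ (τ 1 : ℕ) + ((τ 1 : ℕ) : MvPolynomial (Fin N) ℂ) * X p ^ ((τ 1 : ℕ) - 1) * d +
          (((τ 1 : ℕ).choose 2 : ℕ) : MvPolynomial (Fin N) ℂ) * X p ^ ((τ 1 : ℕ) - 2) * d ^ 2)) = 0 := by
      have hzero : (∑ τ : Fin 2 → Fin (Q + 1), pairCoeff s τ • (Z * X p ^ ((τ 0 : ℕ) + τ 1))) +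
          ((∑ τ : Fin 2 → Fin (Q + 1), (pairCoeff s τ * ((τ 1 : ℕ) : ℂ)) •
            (Z * X p ^ ((τ 0 : ℕ) + τ 1 - 1) * d)) +
          (∑ τ : Fin 2 → Fin (Q + 1), (pairCoeff s τ * (((τ 1 : ℕ).choose 2 : ℕ) : ℂ)) •
            (Z * X p ^ ((τ 0 : ℕ) + τ 1 - 2) * d ^ 2))) = 0 := by
        rw [m0, m1', m2']; simp
      refine Eq.trans ?_ hzero
      rw [← Finset.sum_add_distrib, ← Finset.sum_add_distrib]
      refine Finset.sum_congr rfl fun τ _ => ?_
      simp only [mul_add, smul_add, ← smul_smul, Nat.cast_smul_eq_nsmul, nsmul_eq_mul]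
      rw [add_assoc]
      refine congrArg₂ (· + ·) ?_ (congrArg₂ (· + ·) ?_ ?_)
      · rw [pow_add, mul_assoc]
      · congr 1
        rcases Nat.eq_zero_or_pos (τ 1 : ℕ) with hl | hl
        · simp [hl]
        · rw [show (τ 0 : ℕ) + τ 1 - 1 = τ 0 + ((τ 1 : ℕ) - 1) by omega, pow_add]; ring
      · congr 1
        rcases Nat.lt_or_ge (τ 1 : ℕ) 2 with hl | hl
        · simp [Nat.choose_eq_zero_of_lt hl]
        · rw [show (τ 0 : ℕ) + τ 1 - 2 = τ 0 + ((τ 1 : ℕ) - 2) by omega, pow_add]; ring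
    rw [← sub_zero (∑ τ, _), ← hsum, ← Finset.sum_sub_distrib]
    refine Finset.dvd_sum fun τ _ => ?_
    rw [← smul_sub, ← mul_sub, smul_eq_C_mul]
    refine Dvd.dvd.mul_left (Dvd.dvd.mul_left ?_ _) _
    have := cube_dvd_pow_sub (X p : MvPolynomial (Fin N) ℂ) d (τ 1 : ℕ)
    rwa [hd, add_sub_cancel] at this
  have hall := Finset.dvd_sum fun σ (_ : σ ∈ Finset.univ) => key σ
  rw [← sum_slices (M := MvPolynomial (Fin N) ℂ) hpq
    fun σ _ => monomial (expo σ) (φ σ * wtProd σ)] at hall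
  simp only [Finset.sum_const, nsmul_eq_mul, ← Finset.mul_sum] at hall
  have hne : ((Finset.card (Finset.univ : Finset (Fin 2 → Fin (Q + 1))) : ℕ) : ℂ) ≠ 0 :=
    Nat.cast_ne_zero.2 Fintype.card_ne_zero
  rw [← map_natCast (C : ℂ →+* MvPolynomial (Fin N) ℂ)] at hall
  exact ((isUnit_iff_ne_zero.2 hne).map C).dvd_mul_left.1 hall

/-! ### Divisibility and degree -/

lemma pow_cube_sub_ne_zero {a b : Fin N} (hab : a ≠ b) :
    (X b - X a : MvPolynomial (Fin N) ℂ) ^ 3 ≠ 0 :=
  pow_ne_zero 3 (sub_ne_zero.2 fun e => hab (X_injective e).symm)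

lemma irreducible_sub {a b : Fin N} (hab : a ≠ b) :
    Irreducible (X b - X a : MvPolynomial (Fin N) ℂ) := by
  let F : MvPolynomial (Fin N) ℂ →ₐ[ℂ] MvPolynomial (Fin N) ℂ :=
    aeval fun i => if i = b then X b - X a else X i
  let G : MvPolynomial (Fin N) ℂ →ₐ[ℂ] MvPolynomial (Fin N) ℂ :=
    aeval fun i => if i = b then X b + X a else X i
  have hFG : F.comp G = AlgHom.id ℂ _ := algHom_ext fun i => by
    by_cases hi : i = b
    · subst hi; simp [F, G, hab]
    · simp [F, G, hi]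
  have hGF : G.comp F = AlgHom.id ℂ _ := algHom_ext fun i => by
    by_cases hi : i = b
    · subst hi; simp [F, G, hab]
    · simp [F, G, hi]
  let e := AlgEquiv.ofAlgHom F G hFG hGF
  have hX : Irreducible (X b : MvPolynomial (Fin N) ℂ) := (MvPolynomial.X_prime).irreducible
  have := (MulEquiv.irreducible_iff e.toMulEquiv).2 hX
  simpa [e, F] using this

lemma isRelPrime_pairs {x y : Fin N × Fin N} (hx : x ∈ pairs N) (hy : y ∈ pairs N) (hne : x ≠ y) :
    IsRelPrime ((X x.2 - X x.1 : MvPolynomial (Fin N) ℂ) ^ 3) ((X y.2 - X y.1) ^ 3) := by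
  have ox : x.1 < x.2 := (Finset.mem_filter.1 hx).2
  have oy : y.1 < y.2 := (Finset.mem_filter.1 hy).2
  refine IsRelPrime.pow ((irreducible_sub ox.ne).isRelPrime_iff_not_dvd.2 ?_)
  rintro ⟨c, hc⟩
  let v : Fin N → ℂ := fun i => if i = x.2 then ((x.1 : ℕ) : ℂ) else ((i : ℕ) : ℂ)
  have h := congrArg (eval v) hc
  simp only [map_sub, eval_X, map_mul, v, if_neg ox.ne, if_true, sub_self, zero_mul] at h
  rw [sub_eq_zero] at h
  apply hne
  split_ifs at h with h1 h2 h2
  · exact absurd (h1.trans h2.symm) oy.ne'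
  · exact Prod.ext (Fin.ext (by exact_mod_cast h)) h1.symm
  · rw [h2] at oy
    rw [show y.2 = x.1 from Fin.ext (by exact_mod_cast h)] at oy
    exact absurd (ox.trans oy) (lt_irrefl _)
  · exact absurd (Fin.ext (by exact_mod_cast h)) oy.ne'

lemma laughlinPoly_ne_zero : laughlinPoly N ≠ 0 := by
  rw [laughlinPoly_eq, Finset.prod_ne_zero_iff]
  exact fun x hx => pow_cube_sub_ne_zero (Finset.mem_filter.1 hx).2.ne

/-- Every particle occurs to the full power in the Laughlin polynomial. -/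
lemma degreeOf_laughlin_ge (i : Fin N) : 3 * (N - 1) ≤ degreeOf i (laughlinPoly N) := by
  have hprod : ∀ S : Finset (Fin N × Fin N), S ⊆ pairs N →
      3 * (S.filter fun x => x.1 = i ∨ x.2 = i).card ≤
        degreeOf i (∏ x ∈ S, (X x.2 - X x.1 : MvPolynomial (Fin N) ℂ) ^ 3) := by
    intro S
    induction S using Finset.induction_on with
    | empty => simp
    | @insert x S hxS ih =>
      intro hS
      rw [Finset.insert_subset_iff] at hS
      have ox : x.1 < x.2 := (Finset.mem_filter.1 hS.1).2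
      rw [Finset.prod_insert hxS, degreeOf_mul_eq (pow_cube_sub_ne_zero ox.ne)
        (Finset.prod_ne_zero_iff.2 fun y hy =>
          pow_cube_sub_ne_zero (Finset.mem_filter.1 (hS.2 hy)).2.ne),
        Finset.filter_insert]
      split_ifs with hi
      · have h1 : 1 ≤ degreeOf i (X x.2 - X x.1 : MvPolynomial (Fin N) ℂ) := by
          have hm : Finsupp.single i 1 ∈ (X x.2 - X x.1 : MvPolynomial (Fin N) ℂ).support := by
            rw [mem_support_iff, coeff_sub, coeff_X, coeff_X]
            rcases hi with rfl | rfl <;> simp [Finsupp.single_left_inj, ox.ne, ox.ne']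
          simpa using monomial_le_degreeOf i hm
        rw [Finset.card_insert_of_notMem fun h => hxS (Finset.mem_filter.1 h).1,
          degreeOf_pow_eq _ _ _ (sub_ne_zero.2 fun e => ox.ne (X_injective e).symm)]
        have := ih hS.2
        omega
      · exact (ih hS.2).trans (Nat.le_add_left _ _)
  rw [laughlinPoly_eq]
  refine le_trans (Nat.mul_le_mul_left 3 ?_) (hprod _ subset_rfl)
  calc N - 1 = (Finset.univ.erase i).card := by simp
    _ ≤ ((pairs N).filter fun x => x.1 = i ∨ x.2 = i).card := by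
      refine Finset.card_le_card_of_injOn (fun j => if i < j then (i, j) else (j, i))
        (fun j hj => ?_) fun j hj j' hj' e => ?_
      · simp only [Finset.coe_erase, Finset.coe_univ, Set.mem_sdiff, Set.mem_univ,
          Set.mem_singleton_iff, true_and] at hj
        simp only [Finset.mem_coe, Finset.mem_filter, pairs, Finset.mem_univ, true_and]
        split_ifs with h
        · exact ⟨h, .inl rfl⟩
        · exact ⟨lt_of_le_of_ne (not_lt.1 h) hj, .inr rfl⟩
      · simp only [Finset.coe_erase, Finset.coe_univ, Set.mem_sdiff, Set.mem_univ,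
          Set.mem_singleton_iff, true_and] at hj hj'
        simp only at e
        split_ifs at e <;> simp only [Prod.mk.injEq] at e
        · exact e.2
        · exact absurd e.1.symm hj'
        · exact absurd e.1 hj
        · exact e.1

/-- The zero states at Laughlin flux are the multiples of the Laughlin vector. -/
theorem kernel_eq (hQ : Q = 3 * (N - 1)) {φ : (Fin N → Fin (Q + 1)) → ℂ} (hφ : Antisymm φ)
    (hH : hamiltonian N Q *ᵥ φ = 0) : ∃ a : ℂ, φ = a • laughlin N Q := by
  have hpairs : ∀ p q : Fin N, p < q → ∀ σ, pairProj Q *ᵥ slice p q φ σ = 0 := by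
    intro p q hpq σ
    have h := energy_eq (Q := Q) φ
    rw [hH, dotProduct_zero, Complex.zero_re, mul_zero, eq_comm] at h
    have hnn : ∀ p q : Fin N, 0 ≤ if p < q then ∑ σ, epair (slice p q φ σ) else 0 := fun p q => by
      split_ifs
      exacts [Finset.sum_nonneg fun σ _ => epair_nonneg _, le_rfl]
    have h1 := (Finset.sum_eq_zero_iff_of_nonneg fun p _ => Finset.sum_nonneg fun q _ => hnn p q).1
      h p (Finset.mem_univ p)
    have h2 := (Finset.sum_eq_zero_iff_of_nonneg fun q _ => hnn p q).1 h1 q (Finset.mem_univ q)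
    rw [if_pos hpq] at h2
    have h3 := (Finset.sum_eq_zero_iff_of_nonneg fun σ _ => epair_nonneg _).1 h2 σ
      (Finset.mem_univ σ)
    set s := slice p q φ σ
    have h4 : star (pairProj Q *ᵥ s) = star s ᵥ* pairProj Q := by
      rw [star_mulVec, ← star_eq_conjTranspose, pairProj_star]
    rw [epair, dotProduct_mulVec, ← h4, ← proj_dot s, dotProduct, Complex.re_sum] at h3
    funext τ
    have hre : ∀ z : ℂ, (star z * z).re = Complex.normSq z := fun z => by
      simp [Complex.normSq, mul_comm]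
    simp only [Pi.star_apply, hre] at h3
    exact Complex.normSq_eq_zero.1
      ((Finset.sum_eq_zero_iff_of_nonneg fun τ _ => Complex.normSq_nonneg _).1 h3 τ
        (Finset.mem_univ τ))
  have hdvd : laughlinPoly N ∣ statePoly φ := by
    rw [laughlinPoly_eq]
    refine Finset.prod_dvd_of_isRelPrime (fun x hx y hy hne => isRelPrime_pairs hx hy hne)
      fun x hx => ?_
    have ox : x.1 < x.2 := (Finset.mem_filter.1 hx).2
    exact cube_dvd_statePoly ox.ne (fun σ a b => antisymm_slice hφ ox.ne σ a b)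
      (hpairs _ _ ox)
  obtain ⟨G, hG⟩ := hdvd
  refine ⟨coeff 0 G, funext fun σ => ?_⟩
  have hconst : G = C (coeff 0 G) := by
    rcases eq_or_ne G 0 with rfl | hG0
    · simp
    refine MvPolynomial.ext _ _ fun m => ?_
    rw [coeff_C]
    split_ifs with hm
    · rw [hm]
    · obtain ⟨i, hi⟩ : ∃ i, m i ≠ 0 := by
        by_contra hno
        push Not at hno
        exact hm (Finsupp.ext fun i => by simp [hno i])
      by_contra hc
      have h1 := monomial_le_degreeOf i (mem_support_iff.2 hc)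
      have h2 := degreeOf_statePoly φ i
      rw [hG, degreeOf_mul_eq laughlinPoly_ne_zero hG0] at h2
      have := degreeOf_laughlin_ge i
      omega
  have h := congrArg (coeff (expo σ)) hG
  rw [coeff_statePoly, hconst, mul_comm (laughlinPoly N), coeff_C_mul] at h
  rw [Pi.smul_apply, smul_eq_mul, laughlin_eq, ← mul_div_assoc, eq_div_iff (wtProd_ne σ), h]

/-- The target of the module. -/
theorem kernel : KernelTarget := fun N _ _ hφ hH => kernel_eq (N := N) rfl hφ hH

end

end Vale.Agent.P359.Gap
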