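import Vale.Agent.P359.Gap.Targets
import Vale.Agent.P359.Gap.Spectral.Bounds

/-!
# P359 gap: the energy is at least its low levels, up to a small tail

The one particle part is diagonalised by the strings of highest weight vectors; the pair part is
moved to two pair centres, where it is positive and commutes with lowering.
-/

namespace Vale.Agent.P359.Gap

open Matrix Finset Kronecker

noncomputable section

variable {Q : ℕ}

/-- The pair basis as a matrix. -/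
def pcMat (Q : ℕ) : Matrix (UI Q × UI Q) (CI Q) ℝ := fun x C => pc Q C x.1 x.2

/-- A second pair centre, embedded as two particles. -/
def pairEmb (Q : ℕ) : Matrix (CI Q × UI Q × UI Q) (CI Q × CI Q) ℝ :=
  (1 : Matrix (CI Q) (CI Q) ℝ) ⊗ₖ pcMat Q

lemma down2_pcMat (hQ : 0 < Q) : down2 Q Q * pcMat Q = pcMat Q * down (2 * Q - 2) := by
  ext x C
  rw [down2_mul_apply, mul_apply]
  exact (pc_down_sum hQ C x.1 x.2).symm

lemma up2_pcMat (hQ : 0 < Q) : (down2 Q Q)ᵀ * pcMat Q = pcMat Q * (down (2 * Q - 2))ᵀ := by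
  ext x C
  rw [mul_apply, mul_apply]
  exact (up2_mulVec Q Q (fun z => pcMat Q z C) x).trans (pc_up_sum hQ C x.1 x.2).symm

lemma down3_eq_kron : down3 Q =
    down (2 * Q - 2) ⊗ₖ (1 : Matrix (UI Q × UI Q) (UI Q × UI Q) ℝ) +
      (1 : Matrix (CI Q) (CI Q) ℝ) ⊗ₖ down2 Q Q := by
  ext x y
  simp [down3, one_apply]

lemma down3_pairEmb (hQ : 0 < Q) :
    down3 Q * pairEmb Q = pairEmb Q * down2 (2 * Q - 2) (2 * Q - 2) := by
  rw [down3_eq_kron, down2_eq_kron (A := 2 * Q - 2) (B := 2 * Q - 2), pairEmb, Matrix.add_mul, Matrix.mul_add, ← mul_kronecker_mul,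
    ← mul_kronecker_mul, ← mul_kronecker_mul, ← mul_kronecker_mul]
  simp only [Matrix.one_mul, Matrix.mul_one, down2_pcMat hQ]

lemma up3_pairEmb (hQ : 0 < Q) :
    (down3 Q)ᵀ * pairEmb Q = pairEmb Q * (down2 (2 * Q - 2) (2 * Q - 2))ᵀ := by
  rw [down3_eq_kron, down2_eq_kron (A := 2 * Q - 2) (B := 2 * Q - 2), pairEmb, transpose_add, transpose_add,
    ← kroneckerMap_transpose, ← kroneckerMap_transpose, ← kroneckerMap_transpose,
    ← kroneckerMap_transpose, Matrix.add_mul, Matrix.mul_add, ← mul_kronecker_mul,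
    ← mul_kronecker_mul, ← mul_kronecker_mul, ← mul_kronecker_mul]
  simp only [transpose_one, Matrix.one_mul, Matrix.mul_one, up2_pcMat hQ]

lemma pairEmb_orth (hQ : 0 < Q) : (pairEmb Q)ᵀ * pairEmb Q = 1 := by
  have h : (pcMat Q)ᵀ * pcMat Q = 1 := by
    ext C C'
    rw [mul_apply, Fintype.sum_prod_type, one_apply]
    exact pc_orth hQ C C'
  rw [pairEmb, ← kroneckerMap_transpose, ← mul_kronecker_mul, h, transpose_one, Matrix.one_mul,
    one_kronecker_one]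

lemma pairEmb_hw (L : ℕ) : pairEmb Q *ᵥ hw (2 * Q - 2) (2 * Q - 2) L = hpair Q L := by
  funext ⟨C, a, b⟩
  simp only [mulVec, dotProduct, pairEmb, kroneckerMap_apply, one_apply, pcMat, hpair,
    Fintype.sum_prod_type, ite_mul, one_mul, zero_mul]
  rw [Finset.sum_comm]
  refine Finset.sum_congr rfl fun D _ => ?_
  simp [mul_comm]

lemma dot_sandwich {ι κ : Type} [Fintype ι] [Fintype κ] (L : Matrix ι κ ℝ) (g : Matrix ι ι ℝ)
    (v : κ → ℝ) : v ⬝ᵥ ((Lᵀ * g * L) *ᵥ v) = (L *ᵥ v) ⬝ᵥ (g *ᵥ (L *ᵥ v)) := by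
  rw [← mulVec_mulVec, ← mulVec_mulVec, dotProduct_mulVec, vecMul_transpose]

lemma quot_pairEmb (hQ : 0 < Q) (g : Matrix (CI Q × UI Q × UI Q) (CI Q × UI Q × UI Q) ℝ)
    (L : ℕ) : quot ((pairEmb Q)ᵀ * g * pairEmb Q) (hw (2 * Q - 2) (2 * Q - 2) L) =
      quot g (hpair Q L) := by
  have e : (pairEmb Q *ᵥ hw (2 * Q - 2) (2 * Q - 2) L) ⬝ᵥ
      (pairEmb Q *ᵥ hw (2 * Q - 2) (2 * Q - 2) L) =
      hw (2 * Q - 2) (2 * Q - 2) L ⬝ᵥ hw (2 * Q - 2) (2 * Q - 2) L := by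
    have := dot_sandwich (pairEmb Q) (1 : Matrix _ _ ℝ) (hw (2 * Q - 2) (2 * Q - 2) L)
    rw [Matrix.mul_one, pairEmb_orth hQ, one_mulVec, one_mulVec] at this
    exact this.symm
  rw [quot, quot, dot_sandwich, ← e, pairEmb_hw]

lemma trace_pairEmb (g : Matrix (CI Q × UI Q × UI Q) (CI Q × UI Q × UI Q) ℝ) :
    ((pairEmb Q)ᵀ * g * pairEmb Q).trace =
      ∑ C, ∑ a, ∑ b, ∑ c, ∑ d, Pr Q a b c d * g (C, a, b) (C, c, d) := by
  have hP : ∀ x y : UI Q × UI Q, (pcMat Q * (pcMat Q)ᵀ) x y = Pr Q x.1 x.2 y.1 y.2 :=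
    fun _ _ => rfl
  have h : pairEmb Q * (pairEmb Q)ᵀ =
      (1 : Matrix (CI Q) (CI Q) ℝ) ⊗ₖ (pcMat Q * (pcMat Q)ᵀ) := by
    rw [pairEmb, ← kroneckerMap_transpose, ← mul_kronecker_mul, transpose_one, Matrix.one_mul]
  rw [trace_mul_cycle, h, trace, Fintype.sum_prod_type]
  refine Finset.sum_congr rfl fun C _ => ?_
  have e : ∀ x : UI Q × UI Q,
      ((1 : Matrix (CI Q) (CI Q) ℝ) ⊗ₖ (pcMat Q * (pcMat Q)ᵀ) * g) (C, x) (C, x) =
        ∑ y : UI Q × UI Q, Pr Q x.1 x.2 y.1 y.2 * g (C, y) (C, x) := by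
    intro x
    rw [mul_apply, Fintype.sum_prod_type, Finset.sum_eq_single C]
    · simp [hP]
    · intro D _ hD; simp [Ne.symm hD]
    · simp
  have hsymm : ∀ a b c d : UI Q, Pr Q a b c d = Pr Q c d a b := fun a b c d =>
    Finset.sum_congr rfl fun D _ => mul_comm _ _
  simp only [diag_apply, e]
  rw [Finset.sum_comm]
  simp only [Fintype.sum_prod_type]
  exact Finset.sum_congr rfl fun a _ => Finset.sum_congr rfl fun b _ => Finset.sum_congr rfl
    fun c _ => Finset.sum_congr rfl fun d _ => by rw [hsymm]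

/-- The one particle part, by levels. -/
lemma trace_exchange (hQ : 2 ≤ Q) {g : Matrix (CI Q × UI Q) (CI Q × UI Q) ℝ}
    (hg : g * down2 (2 * Q - 2) Q = down2 (2 * Q - 2) Q * g) :
    (Kmat Q * g).trace / (2 * (Q : ℝ) - 1) = ∑ M ∈ range (Q + 1),
      eig Q M * ((3 * (Q : ℝ) - 1 - 2 * M) / (2 * (Q : ℝ) - 1)) *
        quot g (hw (2 * Q - 2) Q M) := by
  rw [trace_strings (by omega)
    (by rw [Matrix.mul_assoc, hg, ← Matrix.mul_assoc, Kmat_down (by omega), Matrix.mul_assoc]),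
    Finset.sum_div]
  refine Finset.sum_congr rfl fun M hM => ?_
  rw [Finset.mem_range] at hM
  have e : hw (2 * Q - 2) Q M ⬝ᵥ ((Kmat Q * g) *ᵥ hw (2 * Q - 2) Q M) =
      eig Q M * (hw (2 * Q - 2) Q M ⬝ᵥ (g *ᵥ hw (2 * Q - 2) Q M)) := by
    rw [← mulVec_mulVec, dotProduct_mulVec, ← mulVec_transpose, Kmat_symm.eq,
      Kmat_hw hQ (by omega), smul_dotProduct, smul_eq_mul]
  rw [quot, quot, e, Nat.cast_sub (show 2 ≤ 2 * Q by omega)]
  push_cast
  ring

theorem spectral : SpectralTarget := by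
  intro Q hQ g1 g2 h
  have hQ0 : 0 < Q := by omega
  have hQr : (60 : ℝ) ≤ Q := by exact_mod_cast hQ
  set X := (pairEmb Q)ᵀ * g2 * pairEmb Q with hX
  have hcomm : X * down2 (2 * Q - 2) (2 * Q - 2) = down2 (2 * Q - 2) (2 * Q - 2) * X := by
    have ht := congrArg transpose (up3_pairEmb hQ0)
    rw [transpose_mul, transpose_mul, transpose_transpose, transpose_transpose] at ht
    rw [hX, Matrix.mul_assoc, ← down3_pairEmb hQ0, ← Matrix.mul_assoc, Matrix.mul_assoc _ g2,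
      h.comm2, ← Matrix.mul_assoc, ht, Matrix.mul_assoc, Matrix.mul_assoc, Matrix.mul_assoc]
  have hpair_ge : ∑ L ∈ range 30, (4 * (Q : ℝ) - 3 - 2 * L) * quot g2 (hpair Q L) ≤
      ∑ C, ∑ a, ∑ b, ∑ c, ∑ d, Pr Q a b c d * g2 (C, a, b) (C, c, d) := by
    rw [← trace_pairEmb, ← hX, trace_strings le_rfl hcomm]
    have hc : ∀ L : ℕ, ((2 * Q - 2 : ℕ) : ℝ) + (2 * Q - 2 : ℕ) + 1 - 2 * L =
        4 * (Q : ℝ) - 3 - 2 * L := fun L => by
      rw [Nat.cast_sub (show 2 ≤ 2 * Q by omega)]; push_cast; ring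
    simp only [hc, hX, quot_pairEmb hQ0]
    refine Finset.sum_le_sum_of_subset_of_nonneg
      (Finset.range_subset_range.2 (by omega)) fun L hL _ => mul_nonneg ?_ ?_
    · rw [Finset.mem_range] at hL
      have : (L : ℝ) ≤ ((2 * Q - 2 : ℕ) : ℝ) := by exact_mod_cast (show L ≤ 2 * Q - 2 by omega)
      rw [Nat.cast_sub (show 2 ≤ 2 * Q by omega)] at this
      push_cast at this
      linarith
    · exact div_nonneg (h.psd2 _) (Finset.sum_nonneg fun i _ => mul_self_nonneg _)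
  have hsplit := Finset.sum_range_add_sum_Ico
    (fun M : ℕ => eig Q M * ((3 * (Q : ℝ) - 1 - 2 * M) / (2 * (Q : ℝ) - 1)) *
        quot g1 (hw (2 * Q - 2) Q M)) (show 33 ≤ Q + 1 by omega)
  have htail := tail_le (Q := Q) (by omega) (fun M => quot g1 (hw (2 * Q - 2) Q M))
    (fun M => quot_hw_bounds h.symm1 h.psd1 h.diag1 M)
  have hd : (0 : ℝ) < 2 * (2 * (Q : ℝ) - 1) := by linarith
  have h2 : ∑ L ∈ range 30, (4 * (Q : ℝ) - 3 - 2 * L) / (2 * (2 * (Q : ℝ) - 1)) *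
      quot g2 (hpair Q L) ≤
      (∑ C, ∑ a, ∑ b, ∑ c, ∑ d, Pr Q a b c d * g2 (C, a, b) (C, c, d)) /
        (2 * (2 * (Q : ℝ) - 1)) := by
    rw [le_div_iff₀ hd, Finset.sum_mul]
    refine le_trans (le_of_eq (Finset.sum_congr rfl fun L _ => ?_)) hpair_ge
    rw [div_mul_eq_mul_div, div_mul_cancel₀ _ hd.ne']
  rw [energy, lowEnergy, add_div, div_div, trace_exchange (by omega) h.comm1, ← hsplit]
  linarith

end

end Vale.Agent.P359.Gap
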