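import Vale.Agent.P359.Gap.Reduce
import Vale.Agent.P359.Gap.Kernel
import Vale.Agent.P359.Gap.Bottom
import Vale.Agent.P359.Gap.Spectral
import Vale.Agent.P359.Gap.Limit.Limit

/-!
# P359 gap: the modules joined, leaving only the planar certificate
-/

namespace Vale.Agent.P359.Gap

open Matrix

/-- A planar bound with constant below one gives a uniform gap for all large particle numbers. -/
theorem gap_of_cert (cert : CertTarget) :
    ∃ δ : ℝ, 0 < δ ∧ ∃ N0 : ℕ, 2 ≤ N0 ∧ ∀ N, N0 ≤ N → ∀ P, IsPairProj (3 * (N - 1)) P →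
      GapAtLeast (pairHam N (3 * (N - 1)) P) (laughlin N (3 * (N - 1))) δ := by
  obtain ⟨Q0, hQ0⟩ := limit_target (97 / 100) cert (1 / 200) (by norm_num)
  refine ⟨1 - (977 / 1000 : ℝ), by norm_num, Q0 + 62, by omega, fun N hN P hP => ?_⟩
  obtain ⟨n, rfl⟩ : ∃ n, N = n + 2 := ⟨N - 2, by omega⟩
  rw [hP.eq, pairHam_pairProj, show n + 2 - 1 = n + 1 by omega]
  refine reduce n (977 / 1000) (by norm_num) ?_ fun φ hφ h => kernel (n + 2) (by omega) φ hφ h
  refine bottom (3 * (n + 1)) n _ (by omega) fun g1 g2 hm => ?_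
  have h1 := hQ0 (3 * (n + 1)) (by omega) g1 g2 hm
  have h2 := spectral (3 * (n + 1)) (by omega) g1 g2 hm
  linarith

end Vale.Agent.P359.Gap
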