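import Mathlib.Algebra.BigOperators.Fin
import Mathlib.Data.Finsupp.Basic
import Mathlib.Data.Nat.Choose.Basic
import Mathlib.Data.Nat.Factorial.Basic
import Mathlib.Data.Real.Basic

/-!
# P359 gap: the planar limit, in monomial coordinates

`G1 (i, a) (i', a')` is the limit of the one particle marginal multiplied by
`sqrt (2 ^ i * i! * a! * 2 ^ i' * i'! * a'!)`; in these coordinates lowering is a shift.
-/

namespace Vale.Agent.P359.Gap

open Finset Nat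

noncomputable section

/-- One particle coordinates: centre and particle levels. -/
abbrev X1 := ℕ × ℕ

/-- Two particle coordinates. -/
abbrev X2 := ℕ × ℕ × ℕ

/-- A bilinear form evaluated on weighted finite sums of points. -/
def bil {ι : Type} (G : ι → ι → ℝ) (p q : List (ι × ℝ)) : ℝ :=
  (p.map fun x => (q.map fun y => x.2 * y.2 * G x.1 y.1).sum).sum

/-- Coefficients of `(C - 2 a) ^ M * (C + a) ^ t`. -/
def zeta (M t : ℕ) : List (X1 × ℝ) :=
  (List.range (M + 1)).flatMap fun i => (List.range (t + 1)).map fun s =>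
    ((i + s, (M - i) + (t - s)),
      (M.choose i : ℝ) * (-2) ^ (M - i) * (t.choose s : ℝ))

/-- Coefficients of `(a - b) * (C - a - b) ^ L`. -/
def pairPoly (L : ℕ) : List (X2 × ℝ) :=
  (List.range (L + 1)).flatMap fun i => (List.range (L - i + 1)).flatMap fun s =>
    let w : ℝ := (L.choose i : ℝ) * (-1) ^ (L - i) * ((L - i).choose s : ℝ)
    [((i, s + 1, L - i - s), w), ((i, s, L - i - s + 1), -w)]

/-- The properties of a planar limit of marginals. -/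
structure IsPlanar (G1 : X1 → X1 → ℝ) (G2 : X2 → X2 → ℝ) : Prop where
  symm1 : ∀ x y, G1 x y = G1 y x
  symm2 : ∀ x y, G2 x y = G2 y x
  psd1 : ∀ p : List (X1 × ℝ), 0 ≤ bil G1 p p
  psd2 : ∀ p : List (X2 × ℝ), 0 ≤ bil G2 p p
  anti : ∀ i a b y, G2 (i, a, b) y = -G2 (i, b, a) y
  level1 : ∀ i a i' a', i + a ≠ i' + a' → G1 (i, a) (i', a') = 0
  level2 : ∀ i a b i' a' b', i + a + b ≠ i' + a' + b' → G2 (i, a, b) (i', a', b') = 0
  shift1 : ∀ i a i' a', G1 (i, a) (i' + 1, a') + G1 (i, a) (i', a' + 1) =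
    2 * (i : ℝ) * G1 (i - 1, a) (i', a') + (a : ℝ) * G1 (i, a - 1) (i', a')
  shift2 : ∀ i a b i' a' b', G2 (i, a, b) (i' + 1, a', b') + G2 (i, a, b) (i', a' + 1, b') +
      G2 (i, a, b) (i', a', b' + 1) =
    2 * (i : ℝ) * G2 (i - 1, a, b) (i', a', b') + (a : ℝ) * G2 (i, a - 1, b) (i', a', b') +
      (b : ℝ) * G2 (i, a, b - 1) (i', a', b')
  vanish1 : ∀ M ∈ ({0, 1, 3} : Finset ℕ), ∀ t y,
    ((zeta M t).map fun x => x.2 * G1 x.1 y).sum = 0
  vanish2 : ∀ M ∈ ({0, 1, 3} : Finset ℕ), ∀ t b y,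
    ((zeta M t).map fun x => x.2 * G2 (x.1.1, x.1.2, b) y).sum = 0
  hole : ∀ p : List (X1 × ℝ), 0 ≤
    bil (fun x y => if x = y then (2 ^ x.1 * x.1 ! * x.2 ! : ℕ) else 0) p p -
      bil (fun x y => G1 (x.1, y.2) (y.1, x.2)) p p
  partHole : ∀ (u : List (ℕ × ℝ)) (p : List (X2 × ℝ)), 0 ≤
    bil (fun i i' => if i = i' then (2 ^ i * i ! : ℕ) else 0) u u +
      2 * (p.map fun x => (u.map fun z => x.2 * z.2 * G1 (x.1.1, x.1.2.1) (z.1, x.1.2.2)).sum).sum +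
      bil (fun x y => (if x.2.2 = y.2.2 then (x.2.2 ! : ℝ) * G1 (x.1, x.2.1) (y.1, y.2.1) else 0) +
        G2 (x.1, x.2.1, y.2.2) (y.1, x.2.2, y.2.1)) p p

/-- The planar energy at low levels. -/
def planarEnergy (G1 : X1 → X1 → ℝ) (G2 : X2 → X2 → ℝ) : ℝ :=
  (∑ M ∈ range 33, (-1 / 2 : ℝ) ^ M * (3 * (M : ℝ) - 1) * (3 / 2) *
      (bil G1 (zeta M 0) (zeta M 0) / ((6 : ℝ) ^ M * (M ! : ℝ)))) +
  ∑ L ∈ range 30, bil G2 (pairPoly L) (pairPoly L) / (2 * (4 : ℝ) ^ L * (L ! : ℝ))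

end

end Vale.Agent.P359.Gap
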