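import Mathlib.LinearAlgebra.Matrix.DotProduct
import Mathlib.LinearAlgebra.Matrix.Trace
import Mathlib.LinearAlgebra.Matrix.Symmetric
import Mathlib.GroupTheory.Perm.Sign
import Mathlib.Analysis.Real.Sqrt
import Mathlib.Data.Nat.Choose.Basic
import Mathlib.Order.Interval.Finset.Nat

/-!
# P359 gap: definitions on the sphere

Real matrices in the orthonormal weight bases; index `a` is the level, counted from the top weight.
The centre of a pair of spin `Q - 1` has levels `CI Q`, a particle has levels `UI Q`.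
-/

namespace Vale.Agent.P359.Gap

open Matrix Finset

noncomputable section

/-- Levels of the pair centre. -/
abbrev CI (Q : ℕ) := Fin (2 * Q - 2 + 1)

/-- Levels of one particle. -/
abbrev UI (Q : ℕ) := Fin (Q + 1)

/-- Lowering amplitude in the spin `A / 2` representation. -/
def low (A a : ℕ) : ℝ := Real.sqrt (((a : ℝ) + 1) * ((A : ℝ) - a))

/-- The lowering matrix of one spin. -/
def down (A : ℕ) : Matrix (Fin (A + 1)) (Fin (A + 1)) ℝ :=
  fun i j => if (i : ℕ) = (j : ℕ) + 1 then low A j else 0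

/-- The total lowering matrix of two spins. -/
def down2 (A B : ℕ) : Matrix (Fin (A + 1) × Fin (B + 1)) (Fin (A + 1) × Fin (B + 1)) ℝ :=
  fun x y => (if x.2 = y.2 then down A x.1 y.1 else 0) +
    (if x.1 = y.1 then down B x.2 y.2 else 0)

/-- The total lowering matrix of the pair centre and two particles. -/
def down3 (Q : ℕ) : Matrix (CI Q × UI Q × UI Q) (CI Q × UI Q × UI Q) ℝ :=
  fun x y => (if x.2 = y.2 then down (2 * Q - 2) x.1 y.1 else 0) +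
    (if x.1 = y.1 then down2 Q Q x.2 y.2 else 0)

/-- The vector of highest weight at level `M` in a product of two spins, not normalised. -/
def hw (A B M : ℕ) (x : Fin (A + 1) × Fin (B + 1)) : ℝ :=
  if (x.1 : ℕ) + (x.2 : ℕ) = M then
    (-1) ^ (x.1 : ℕ) * (M.choose (x.1 : ℕ) : ℝ) /
      Real.sqrt ((A.choose (x.1 : ℕ) : ℝ) * (B.choose (x.2 : ℕ) : ℝ))
  else 0

/-- The orthonormal basis of total spin `Q - 1` in a pair, by level. -/
def pc (Q : ℕ) (C : CI Q) (a b : UI Q) : ℝ :=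
  if (a : ℕ) + (b : ℕ) = (C : ℕ) + 1 then
    ((b : ℕ) - (a : ℕ) : ℝ) * Real.sqrt ((Q.choose a : ℝ) * (Q.choose b : ℝ) /
      (2 * (Q : ℝ) * ((2 * Q - 2).choose C : ℝ)))
  else 0

/-- The matrix of the pair projection. -/
def Pr (Q : ℕ) (a b c d : UI Q) : ℝ := ∑ C : CI Q, pc Q C a b * pc Q C c d

/-- The exchange operator between the pair centre and one other particle. -/
def Kmat (Q : ℕ) : Matrix (CI Q × UI Q) (CI Q × UI Q) ℝ :=
  fun x y => -2 * ∑ a : UI Q, pc Q x.1 a y.2 * pc Q y.1 a x.2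

/-- The eigenvalue of the exchange operator at level `M`. -/
def eig (Q M : ℕ) : ℝ :=
  (-1) ^ M * ((Q.choose M : ℝ) / ((2 * Q - 2).choose M : ℝ)) *
    ((M : ℝ) - 1 + (M : ℝ) * (2 * (Q : ℝ) - 1 - M) / Q)

/-- States of the pair centre and `n` further particles. -/
abbrev St (Q n : ℕ) := CI Q → (Fin n → UI Q) → ℝ

/-- Antisymmetry in the further particles. -/
def Anti {Q n : ℕ} (χ : St Q n) : Prop :=
  ∀ (e : Equiv.Perm (Fin n)) C x, χ C (x ∘ e) = ((Equiv.Perm.sign e : ℤ) : ℝ) * χ C x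

/-- No component where the exchange operator is minus one, for each further particle. -/
def Vanish {Q n : ℕ} (χ : St Q n) : Prop :=
  ∀ v : CI Q × UI Q → ℝ, Kmat Q *ᵥ v = -v →
    ∀ (k : Fin n) (x : Fin n → UI Q), ∑ i, v i * χ i.1 (Function.update x k i.2) = 0

/-- The squared length. -/
def sqSum {Q n : ℕ} (χ : St Q n) : ℝ := ∑ C, ∑ x, χ C x ^ 2

/-- The quadratic form of the exchange terms and of the disjoint pairs. -/
def Wform {Q n : ℕ} (χ : St Q n) : ℝ :=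
  (∑ k : Fin n, ∑ C, ∑ x : Fin n → UI Q, ∑ j : CI Q × UI Q,
      χ C x * Kmat Q (C, x k) j * χ j.1 (Function.update x k j.2)) +
  ∑ k : Fin n, ∑ l : Fin n, if k < l then
      ∑ C, ∑ x : Fin n → UI Q, ∑ c, ∑ d,
        χ C x * Pr Q (x k) (x l) c d * χ C (Function.update (Function.update x k c) l d)
    else 0

/-- The properties of the one and two particle marginals, normalised per level of the centre. -/
structure IsMarginal (Q : ℕ) (g1 : Matrix (CI Q × UI Q) (CI Q × UI Q) ℝ)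
    (g2 : Matrix (CI Q × UI Q × UI Q) (CI Q × UI Q × UI Q) ℝ) : Prop where
  symm1 : g1.IsSymm
  symm2 : g2.IsSymm
  psd1 : ∀ w, 0 ≤ w ⬝ᵥ (g1 *ᵥ w)
  psd2 : ∀ w, 0 ≤ w ⬝ᵥ (g2 *ᵥ w)
  anti : ∀ C a b y, g2 (C, a, b) y = -g2 (C, b, a) y
  level1 : ∀ x y, (x.1 : ℕ) + x.2 ≠ (y.1 : ℕ) + y.2 → g1 x y = 0
  level2 : ∀ x y, (x.1 : ℕ) + x.2.1 + x.2.2 ≠ (y.1 : ℕ) + y.2.1 + y.2.2 → g2 x y = 0
  diag1 : ∀ i, g1 i i ≤ 1
  diag2 : ∀ i, g2 i i ≤ 1
  comm1 : g1 * down2 (2 * Q - 2) Q = down2 (2 * Q - 2) Q * g1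
  comm2 : g2 * down3 Q = down3 Q * g2
  vanish1 : ∀ v, Kmat Q *ᵥ v = -v → g1 *ᵥ v = 0
  vanish2 : ∀ v, Kmat Q *ᵥ v = -v → ∀ b y, ∑ i, v i * g2 (i.1, i.2, b) y = 0
  hole : ∀ ξ : CI Q → UI Q → ℝ, 0 ≤ (∑ C, ∑ j, ξ C j ^ 2) -
    ∑ C, ∑ j, ∑ C', ∑ j', ξ C j * ξ C' j' * g1 (C, j') (C', j)
  partHole : ∀ (u : CI Q → ℝ) (φ : CI Q → UI Q → UI Q → ℝ),
    0 ≤ (∑ C, u C ^ 2) + 2 * (∑ C, ∑ a, ∑ j, ∑ C', φ C a j * u C' * g1 (C, a) (C', j)) +
      ∑ C, ∑ a, ∑ j, ∑ C', ∑ a', ∑ j', φ C a j * φ C' a' j' *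
        ((if j = j' then g1 (C, a) (C', a') else 0) + g2 (C, a, j') (C', j, a'))

/-- The energy of a pair of marginals, per level of the centre. -/
def energy (Q : ℕ) (g1 : Matrix (CI Q × UI Q) (CI Q × UI Q) ℝ)
    (g2 : Matrix (CI Q × UI Q × UI Q) (CI Q × UI Q × UI Q) ℝ) : ℝ :=
  ((Kmat Q * g1).trace +
    (∑ C, ∑ a, ∑ b, ∑ c, ∑ d, Pr Q a b c d * g2 (C, a, b) (C, c, d)) / 2) / (2 * (Q : ℝ) - 1)

/-- The value of a quadratic form on a vector divided by its squared length. -/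
def quot {ι : Type} [Fintype ι] (g : Matrix ι ι ℝ) (v : ι → ℝ) : ℝ :=
  v ⬝ᵥ (g *ᵥ v) / (v ⬝ᵥ v)

/-- The vector of highest weight at level `L` in the pair centre and a second pair. -/
def hpair (Q L : ℕ) (x : CI Q × UI Q × UI Q) : ℝ :=
  ∑ D : CI Q, hw (2 * Q - 2) (2 * Q - 2) L (x.1, D) * pc Q D x.2.1 x.2.2

/-- The low levels of the energy: one particle up to level 32, pairs up to level 30. -/
def lowEnergy (Q : ℕ) (g1 : Matrix (CI Q × UI Q) (CI Q × UI Q) ℝ)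
    (g2 : Matrix (CI Q × UI Q × UI Q) (CI Q × UI Q × UI Q) ℝ) : ℝ :=
  (∑ M ∈ range 33, eig Q M * ((3 * (Q : ℝ) - 1 - 2 * M) / (2 * (Q : ℝ) - 1)) *
      quot g1 (hw (2 * Q - 2) Q M)) +
  ∑ L ∈ range 30, (4 * (Q : ℝ) - 3 - 2 * L) / (2 * (2 * (Q : ℝ) - 1)) * quot g2 (hpair Q L)

end

end Vale.Agent.P359.Gap
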