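import Vale.Agent.P359.Defs
import Vale.Agent.P359.Plain
import Vale.Agent.P359.Gap.Sphere
import Vale.Agent.P359.Gap.Planar

/-!
# P359 gap: what each module proves

These are statements only; each is proved in the module named beside it, and the assembly joins them.
-/

namespace Vale.Agent.P359.Gap

open Matrix

noncomputable section

/-- Module Reduce: a bound on the quadratic form and a one dimensional kernel give the gap. -/
def ReduceTarget : Prop :=
  ∀ (n : ℕ) (c : ℝ), c < 1 →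
    (∀ χ : St (3 * (n + 1)) n, Anti χ → Vanish χ → -c * sqSum χ ≤ Wform χ) →
    (∀ φ : (Fin (n + 2) → Fin (3 * (n + 1) + 1)) → ℂ, Antisymm φ →
      hamiltonian (n + 2) (3 * (n + 1)) *ᵥ φ = 0 →
      ∃ a : ℂ, φ = a • laughlin (n + 2) (3 * (n + 1))) →
    GapAtLeast (hamiltonian (n + 2) (3 * (n + 1))) (laughlin (n + 2) (3 * (n + 1))) (1 - c)

/-- Module Kernel: the zero states at Laughlin flux are multiples of the Laughlin vector. -/
def KernelTarget : Prop :=
  ∀ N : ℕ, 2 ≤ N → ∀ φ : (Fin N → Fin (3 * (N - 1) + 1)) → ℂ, Antisymm φ →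
    hamiltonian N (3 * (N - 1)) *ᵥ φ = 0 → ∃ a : ℂ, φ = a • laughlin N (3 * (N - 1))

/-- Module Bottom: the bottom eigenspace gives marginals of low energy. -/
def BottomTarget : Prop :=
  ∀ (Q n : ℕ) (c : ℝ), 2 ≤ Q → (∀ g1 g2, IsMarginal Q g1 g2 → -c ≤ energy Q g1 g2) →
    ∀ χ : St Q n, Anti χ → Vanish χ → -c * sqSum χ ≤ Wform χ

/-- Module Spectral: the energy is at least its low levels up to a small tail. -/
def SpectralTarget : Prop :=
  ∀ Q, 60 ≤ Q → ∀ g1 g2, IsMarginal Q g1 g2 → lowEnergy Q g1 g2 - 1 / 500 ≤ energy Q g1 g2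

/-- Module Limit: a planar bound gives the bound on all large spheres. -/
def LimitTarget : Prop :=
  ∀ c : ℝ, (∀ G1 G2, IsPlanar G1 G2 → -c ≤ planarEnergy G1 G2) →
    ∀ ε : ℝ, 0 < ε → ∃ Q0, ∀ Q, Q0 ≤ Q → ∀ g1 g2, IsMarginal Q g1 g2 → -c - ε ≤ lowEnergy Q g1 g2

/-- Module Certificate: the planar bound. -/
def CertTarget : Prop := ∀ G1 G2, IsPlanar G1 G2 → -(97 / 100 : ℝ) ≤ planarEnergy G1 G2

end

end Vale.Agent.P359.Gap
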