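import Vale.Agent.P359.Gap.Bottom.Pos
import Vale.Agent.P359.Gap.Bottom.Comm
import Vale.Agent.P359.Gap.Targets

/-!
# P359 gap, module Bottom: a bottom family gives marginals
-/

namespace Vale.Agent.P359.Gap

open Matrix

variable {Q n : ℕ}

/-- The partial traces of a bottom family are marginals. -/
theorem Data.isMarginal (D : Data Q n) (hQ : 2 ≤ Q) : IsMarginal Q D.g1 D.g2 where
  symm1 := D.symm1
  symm2 := D.symm2
  psd1 := Data.psd1 hQ
  psd2 := Data.psd2 hQ
  anti := Data.anti_g2
  level1 := D.level1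
  level2 := D.level2
  diag1 := Data.diag1 hQ (D.centre_level hQ)
  diag2 := Data.diag2 hQ (D.centre_level hQ)
  comm1 := D.comm1
  comm2 := D.comm2
  vanish1 := Data.vanish_g1
  vanish2 := Data.vanish_g2
  hole := Data.hole_g1 hQ (D.centre_level hQ)
  partHole := Data.partHole_g hQ (D.centre_level hQ)

/-- The existence of bottom families below any value of the form gives the target. -/
theorem bottom_of (h : ∀ (Q n : ℕ) (c : ℝ), 2 ≤ Q → ∀ χ : St Q n, Anti χ → Vanish χ →
    Wform χ < -c * sqSum χ → ∃ D : Data Q n, D.lam < -c) : BottomTarget := by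
  intro Q n c hQ hc χ ha hv
  by_contra! hlt
  obtain ⟨D, hD⟩ := h Q n c hQ χ ha hv hlt
  have := hc D.g1 D.g2 (D.isMarginal hQ)
  rw [Data.energy_eq hQ D.m1_symm] at this
  linarith

end Vale.Agent.P359.Gap
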