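import Vale.Agent.P359.Gap.Coord
import Mathlib.Algebra.Polynomial.Coeff
import Mathlib.Algebra.Polynomial.Eval.Degree
import Mathlib.Algebra.MvPolynomial.PDeriv
import Mathlib.Algebra.MvPolynomial.Rename
import Mathlib.RingTheory.MvPolynomial.Basic
import Mathlib.Algebra.BigOperators.NatAntidiagonal
import Mathlib.Tactic

/-!
# P359 gap: the planar limit in translation adapted coordinates

The coefficient arrays are those of products of linear factors, which gives their recurrences and
the expansions; the planar limit becomes a bilinear form on polynomials in which multiplication by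
the total raising is adjoint to a derivation.
-/

namespace Vale.Agent.P359.Gap

open Finset Nat

noncomputable section

section Univariate

open Polynomial

lemma coeff_lin {R : Type*} [CommRing R] (c r : R) (n k : ℕ) :
    ((C c * X + C r) ^ n).coeff k = c ^ k * r ^ (n - k) * (n.choose k : R) := by
  have h : (C c * X + C r : R[X]) = (X + C r).comp (C c * X) := by simp
  rw [h, ← pow_comp, comp_C_mul_X_coeff, coeff_X_add_C_pow]
  ring

/-- A linear factor in one variable. -/
def lin1 (α β : ℤ) : ℤ[X] := C α * X + C β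

lemma coeff_mul_lin1 (P : ℤ[X]) (α β : ℤ) (t : ℕ) :
    (P * lin1 α β).coeff t = α * (if 0 < t then P.coeff (t - 1) else 0) + β * P.coeff t := by
  rcases t with _ | t <;>
    simp [lin1, mul_add, ← mul_assoc, mul_comm]

/-- A linear factor in two variables, the outer one for the translations. -/
def lin2 (α β γ : ℤ) : ℤ[X][X] := C (C α) * X + C (C γ * X + C β)

lemma coeff_mul_lin2 (P : ℤ[X][X]) (α β γ : ℤ) (t q : ℕ) :
    ((P * lin2 α β γ).coeff t).coeff q =
      α * (if 0 < t then (P.coeff (t - 1)).coeff q else 0) + β * (P.coeff t).coeff q +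
        γ * (if 0 < q then (P.coeff t).coeff (q - 1) else 0) := by
  rw [lin2, mul_add, ← mul_assoc, coeff_add, coeff_mul_C]
  rcases t with _ | t <;> rcases q with _ | q <;>
    simp [mul_add, ← mul_assoc] <;> ring

/-- The generating polynomial of `coef1`. -/
def gen1 (i a : ℕ) : ℤ[X] := lin1 2 1 ^ i * lin1 1 (-1) ^ a

lemma coeff_gen1 (i a t : ℕ) : (gen1 i a).coeff t = coef1 i a t := by
  rw [gen1, coeff_mul, Finset.Nat.sum_antidiagonal_eq_sum_range_succ_mk, coef1]
  refine sum_congr rfl fun s _ => ?_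
  rw [lin1, lin1, coeff_lin, coeff_lin, one_pow, one_pow]
  ring

/-- The generating polynomial of `coef2`. -/
def gen2 (i a b : ℕ) : ℤ[X][X] := lin2 2 2 0 ^ i * (lin2 1 (-1) 2 ^ a * lin2 1 (-1) (-2) ^ b)

lemma coeff_lin2_pow (γ : ℤ) (n t q : ℕ) :
    ((lin2 1 (-1) γ ^ n).coeff t).coeff q =
      (n.choose t : ℤ) * ((n - t).choose q : ℤ) * γ ^ q * (-1) ^ (n - t - q) := by
  have h : lin2 1 (-1) γ = C (1 : ℤ[X]) * X + C (C γ * X + C (-1)) := by simp [lin2]
  rw [h, coeff_lin, one_pow, one_mul, coeff_mul_natCast, coeff_lin]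
  ring

lemma coeff_gen2 (i a b t q : ℕ) : ((gen2 i a b).coeff t).coeff q = coef2 i a b t q := by
  have h : lin2 2 2 0 ^ i = C (C ((2 : ℤ) ^ i)) * (X + 1) ^ i := by
    rw [map_pow, map_pow, ← mul_pow]
    congr 1
    simp [lin2, mul_add]
  rw [gen2, h, mul_assoc, coeff_C_mul, coeff_C_mul, coeff_mul,
    Finset.Nat.sum_antidiagonal_eq_sum_range_succ_mk, coef2, finsetSum_coeff]
  congr 1
  refine sum_congr rfl fun s _ => ?_
  rw [coeff_X_add_one_pow, coeff_natCast_mul, coeff_mul,
    Finset.Nat.sum_antidiagonal_eq_sum_range_succ_mk, finsetSum_coeff]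
  congr 1
  refine sum_congr rfl fun u _ => ?_
  rw [coeff_mul, Finset.Nat.sum_antidiagonal_eq_sum_range_succ_mk]
  refine sum_congr rfl fun r _ => ?_
  rw [coeff_lin2_pow, coeff_lin2_pow]

lemma coef1_zero (t : ℕ) : coef1 0 0 t = if t = 0 then 1 else 0 := by
  simp [← coeff_gen1, gen1, coeff_one]

lemma coef1_succ_left (i a t : ℕ) :
    coef1 (i + 1) a t = 2 * (if 0 < t then coef1 i a (t - 1) else 0) + coef1 i a t := by
  simp only [← coeff_gen1]
  rw [show gen1 (i + 1) a = gen1 i a * lin1 2 1 by simp only [gen1, _root_.pow_succ]; ring, coeff_mul_lin1]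
  ring

lemma coef1_succ_right (i a t : ℕ) :
    coef1 i (a + 1) t = (if 0 < t then coef1 i a (t - 1) else 0) - coef1 i a t := by
  simp only [← coeff_gen1]
  rw [show gen1 i (a + 1) = gen1 i a * lin1 1 (-1) by simp only [gen1, _root_.pow_succ]; ring,
    coeff_mul_lin1]
  ring

lemma coef2_zero (t q : ℕ) : coef2 0 0 0 t q = if t = 0 ∧ q = 0 then 1 else 0 := by
  rcases t with _ | t <;> simp [← coeff_gen2, gen2, coeff_one]

lemma coef2_succ_i (i a b t q : ℕ) :
    coef2 (i + 1) a b t q =
      2 * (if 0 < t then coef2 i a b (t - 1) q else 0) + 2 * coef2 i a b t q := by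
  simp only [← coeff_gen2]
  rw [show gen2 (i + 1) a b = gen2 i a b * lin2 2 2 0 by simp only [gen2, _root_.pow_succ]; ring,
    coeff_mul_lin2]
  ring

lemma coef2_succ_a (i a b t q : ℕ) :
    coef2 i (a + 1) b t q = (if 0 < t then coef2 i a b (t - 1) q else 0) - coef2 i a b t q +
      2 * (if 0 < q then coef2 i a b t (q - 1) else 0) := by
  simp only [← coeff_gen2]
  rw [show gen2 i (a + 1) b = gen2 i a b * lin2 1 (-1) 2 by simp only [gen2, _root_.pow_succ]; ring,
    coeff_mul_lin2]
  ring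

lemma coef2_succ_b (i a b t q : ℕ) :
    coef2 i a (b + 1) t q = (if 0 < t then coef2 i a b (t - 1) q else 0) - coef2 i a b t q -
      2 * (if 0 < q then coef2 i a b t (q - 1) else 0) := by
  simp only [← coeff_gen2]
  rw [show gen2 i a (b + 1) = gen2 i a b * lin2 1 (-1) (-2) by simp only [gen2, _root_.pow_succ]; ring,
    coeff_mul_lin2]
  ring

variable {R : Type*} [CommRing R] (T x e : R)

/-- The homogenisation in degree `n`. -/
def hom1 (n : ℕ) (P : ℤ[X]) : R :=
  ∑ p ∈ antidiagonal n, (P.coeff p.1 : R) * (T ^ p.1 * x ^ p.2)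

/-- No coefficient above degree `n`. -/
def Below1 (n : ℕ) (P : ℤ[X]) : Prop := ∀ t, n < t → P.coeff t = 0

lemma hom1_step {n : ℕ} {P : ℤ[X]} (h : Below1 n P) (α β : ℤ) :
    Below1 (n + 1) (P * lin1 α β) ∧
      hom1 T x (n + 1) (P * lin1 α β) = hom1 T x n P * ((α : R) * T + (β : R) * x) := by
  refine ⟨fun t ht => ?_, ?_⟩
  · rw [coeff_mul_lin1, if_pos (by omega), h _ (by omega), h _ (by omega)]; ring
  · simp only [hom1, coeff_mul_lin1, Int.cast_add, add_mul (_ : R) _ (_ * _), sum_add_distrib,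
      mul_add, sum_mul]
    congr 1
    · rw [Finset.Nat.sum_antidiagonal_succ]
      simp only [lt_irrefl, if_false, mul_zero, Int.cast_zero, zero_mul, zero_add, Nat.succ_pos,
        if_true, Nat.add_sub_cancel, Int.cast_mul]
      exact sum_congr rfl fun p _ => by ring
    · rw [Finset.Nat.sum_antidiagonal_succ', h _ (by omega)]
      simp only [mul_zero, Int.cast_zero, zero_mul, zero_add, Int.cast_mul]
      exact sum_congr rfl fun p _ => by ring

lemma hom1_pow {n : ℕ} {P : ℤ[X]} (h : Below1 n P) (α β : ℤ) :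
    ∀ k, Below1 (n + k) (P * lin1 α β ^ k) ∧
      hom1 T x (n + k) (P * lin1 α β ^ k) = hom1 T x n P * ((α : R) * T + (β : R) * x) ^ k
  | 0 => by simp [h]
  | k + 1 => by
    obtain ⟨h1, h2⟩ := hom1_pow h α β k
    obtain ⟨h3, h4⟩ := hom1_step T x h1 α β
    rw [_root_.pow_succ (lin1 α β), ← mul_assoc, ← add_assoc]
    exact ⟨h3, by rw [h4, h2]; ring⟩

lemma hom1_prod (α β γ δ : ℤ) (i a : ℕ) :
    ∑ t ∈ range (i + a + 1), ((lin1 α β ^ i * lin1 γ δ ^ a).coeff t : R) *
        (T ^ t * x ^ (i + a - t)) =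
      ((α : R) * T + (β : R) * x) ^ i * ((γ : R) * T + (δ : R) * x) ^ a := by
  have h0 : Below1 0 (1 : ℤ[X]) := fun t ht => by simp [coeff_one, ht.ne']
  obtain ⟨h1, h2⟩ := hom1_pow T x h0 α β i
  rw [zero_add, one_mul] at h1 h2
  obtain ⟨-, h3⟩ := hom1_pow T x h1 γ δ a
  rw [h2] at h3
  simp only [hom1, Finset.Nat.sum_antidiagonal_eq_sum_range_succ_mk] at h3
  simpa using h3

/-- The homogenisation in degree `n`. -/
def hom2 (n : ℕ) (P : ℤ[X][X]) : R :=
  ∑ p ∈ antidiagonal n, T ^ p.1 *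
    ∑ r ∈ antidiagonal p.2, ((P.coeff p.1).coeff r.1 : R) * (x ^ r.2 * e ^ r.1)

/-- No coefficient above degree `n`. -/
def Below2 (n : ℕ) (P : ℤ[X][X]) : Prop := ∀ t q, n < t + q → (P.coeff t).coeff q = 0

lemma hom2_step {n : ℕ} {P : ℤ[X][X]} (h : Below2 n P) (α β γ : ℤ) :
    Below2 (n + 1) (P * lin2 α β γ) ∧
      hom2 T x e (n + 1) (P * lin2 α β γ) =
        hom2 T x e n P * ((α : R) * T + (β : R) * x + (γ : R) * e) := by
  refine ⟨fun t q hq => ?_, ?_⟩
  · have e1 : (if 0 < t then (P.coeff (t - 1)).coeff q else 0) = 0 := by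
      split_ifs with h'
      · exact h _ _ (by omega)
      · rfl
    have e2 : (if 0 < q then (P.coeff t).coeff (q - 1) else 0) = 0 := by
      split_ifs with h'
      · exact h _ _ (by omega)
      · rfl
    rw [coeff_mul_lin2, e1, e2, h t q (by omega)]; ring
  · simp only [hom2, coeff_mul_lin2, Int.cast_add, add_mul (_ : R) _ (_ * _), sum_add_distrib,
      mul_add, sum_mul]
    congr 1
    congr 1
    · rw [Finset.Nat.sum_antidiagonal_succ]
      simp only [lt_irrefl, if_false, mul_zero, Int.cast_zero, zero_mul, sum_const_zero, zero_add,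
        Nat.succ_pos, if_true, Nat.add_sub_cancel, Int.cast_mul]
      simp only [mul_sum, sum_mul]
      exact sum_congr rfl fun p _ => sum_congr rfl fun r _ => by ring
    · rw [Finset.Nat.sum_antidiagonal_succ']
      simp only [Finset.Nat.antidiagonal_zero, sum_singleton, h (n + 1) 0 (by omega), mul_zero,
        Int.cast_zero, zero_mul, zero_add, Int.cast_mul]
      refine sum_congr rfl fun p hp => ?_
      rw [mem_antidiagonal] at hp
      rw [Finset.Nat.sum_antidiagonal_succ', h p.1 (p.2 + 1) (by omega)]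
      simp only [Int.cast_zero, mul_zero, zero_mul, zero_add, mul_sum, sum_mul]
      exact sum_congr rfl fun r _ => by ring
    · rw [Finset.Nat.sum_antidiagonal_succ']
      simp only [Finset.Nat.antidiagonal_zero, sum_singleton, lt_irrefl, if_false, mul_zero,
        Int.cast_zero, zero_mul, zero_add, Int.cast_mul]
      refine sum_congr rfl fun p _ => ?_
      rw [Finset.Nat.sum_antidiagonal_succ]
      simp only [lt_irrefl, if_false, Int.cast_zero, mul_zero, zero_mul, zero_add, Nat.succ_pos,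
        if_true, Nat.add_sub_cancel, mul_sum, sum_mul]
      exact sum_congr rfl fun r _ => by ring

lemma hom2_pow {n : ℕ} {P : ℤ[X][X]} (h : Below2 n P) (α β γ : ℤ) :
    ∀ k, Below2 (n + k) (P * lin2 α β γ ^ k) ∧
      hom2 T x e (n + k) (P * lin2 α β γ ^ k) =
        hom2 T x e n P * ((α : R) * T + (β : R) * x + (γ : R) * e) ^ k
  | 0 => by simp [h]
  | k + 1 => by
    obtain ⟨h1, h2⟩ := hom2_pow h α β γ k
    obtain ⟨h3, h4⟩ := hom2_step T x e h1 α β γ
    rw [_root_.pow_succ (lin2 α β γ), ← mul_assoc, ← add_assoc]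
    exact ⟨h3, by rw [h4, h2]; ring⟩

lemma hom2_gen2 (i a b : ℕ) :
    ∑ t ∈ range (i + a + b + 1), T ^ t * ∑ q ∈ range (i + a + b - t + 1),
        (coef2 i a b t q : R) * (x ^ (i + a + b - t - q) * e ^ q) =
      (2 * T + 2 * x) ^ i * (T - x + 2 * e) ^ a * (T - x - 2 * e) ^ b := by
  have h0 : Below2 0 (1 : ℤ[X][X]) := fun t q hq => by
    rcases t with _ | t <;> simp [coeff_one] ; omega
  obtain ⟨h1, h2⟩ := hom2_pow T x e h0 2 2 0 i
  rw [zero_add, one_mul] at h1 h2
  obtain ⟨h3, h4⟩ := hom2_pow T x e h1 1 (-1) 2 a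
  obtain ⟨-, h5⟩ := hom2_pow T x e h3 1 (-1) (-2) b
  rw [h4, h2] at h5
  simp only [hom2, mul_assoc (_ : ℤ[X][X]), ← gen2.eq_1, coeff_gen2,
    Finset.Nat.sum_antidiagonal_eq_sum_range_succ_mk] at h5
  refine h5.trans ?_
  simp [coeff_one]
  ring

end Univariate

section Form

open MvPolynomial

variable {σ ι : Type} (idx : (σ →₀ ℕ) ≃ ι)

/-- The monomial with given coordinates. -/
def mono (x : ι) : MvPolynomial σ ℝ := monomial (idx.symm x) 1

/-- The bilinear form with given values on monomials. -/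
def form (G : ι → ι → ℝ) : MvPolynomial σ ℝ →ₗ[ℝ] MvPolynomial σ ℝ →ₗ[ℝ] ℝ :=
  (basisMonomials σ ℝ).constr ℝ fun m =>
    (basisMonomials σ ℝ).constr ℝ fun m' => G (idx m) (idx m')

/-- The polynomial of a weighted list of points. -/
def poly (p : List (ι × ℝ)) : MvPolynomial σ ℝ := (p.map fun x => x.2 • mono idx x.1).sum

variable {idx}

lemma ext_mono {M : Type*} [AddCommMonoid M] [Module ℝ M] {f g : MvPolynomial σ ℝ →ₗ[ℝ] M}
    (h : ∀ x, f (mono idx x) = g (mono idx x)) : f = g := by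
  refine (basisMonomials σ ℝ).ext fun m => ?_
  simpa [mono, coe_basisMonomials] using h (idx m)

lemma form_mono (G : ι → ι → ℝ) (x y : ι) : form idx G (mono idx x) (mono idx y) = G x y := by
  have h : ∀ z, mono idx z = basisMonomials σ ℝ (idx.symm z) := fun z => by
    simp [mono, coe_basisMonomials]
  rw [h, h, form, Module.Basis.constr_basis, Module.Basis.constr_basis, Equiv.apply_symm_apply,
    Equiv.apply_symm_apply]

lemma poly_cons (x : ι × ℝ) (p : List (ι × ℝ)) :
    poly idx (x :: p) = x.2 • mono idx x.1 + poly idx p := by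
  simp [poly]

lemma poly_append (p q : List (ι × ℝ)) : poly idx (p ++ q) = poly idx p + poly idx q := by
  simp [poly]

lemma exists_poly (f : MvPolynomial σ ℝ) : ∃ p : List (ι × ℝ), poly idx p = f := by
  induction f using MvPolynomial.induction_on' with
  | monomial m r => exact ⟨[(idx m, r)], by simp [poly, mono, smul_monomial]⟩
  | add f g hf hg =>
    obtain ⟨p, rfl⟩ := hf
    obtain ⟨q, rfl⟩ := hg
    exact ⟨p ++ q, poly_append p q⟩

lemma form_poly_mono (G : ι → ι → ℝ) (p : List (ι × ℝ)) (y : ι) :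
    form idx G (poly idx p) (mono idx y) = (p.map fun x => x.2 * G x.1 y).sum := by
  induction p with
  | nil => simp [poly]
  | cons x p ih => simp [poly_cons, ih, form_mono]

lemma bil_eq (G : ι → ι → ℝ) (p q : List (ι × ℝ)) :
    bil G p q = form idx G (poly idx p) (poly idx q) := by
  induction p with
  | nil => simp [bil, poly]
  | cons x p ih =>
    have h : ∀ q : List (ι × ℝ), (q.map fun y => x.2 * y.2 * G x.1 y.1).sum =
        x.2 * form idx G (mono idx x.1) (poly idx q) := by
      intro q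
      induction q with
      | nil => simp [poly]
      | cons y q ihq => simp [poly_cons, form_mono, ihq]; ring
    simp [poly_cons, ← ih, bil, h]

lemma poly_flatMap_range (f : ℕ → List (ι × ℝ)) (n : ℕ) :
    poly idx ((List.range n).flatMap f) = ∑ i ∈ range n, poly idx (f i) := by
  induction n with
  | zero => simp [poly]
  | succ n ih => simp [List.range_succ, poly_append, ih, sum_range_succ]

lemma poly_map_range (f : ℕ → ι × ℝ) (n : ℕ) :
    poly idx ((List.range n).map f) = ∑ i ∈ range n, (f i).2 • mono idx (f i).1 := by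
  induction n with
  | zero => simp [poly]
  | succ n ih =>
    rw [List.range_succ, List.map_append, poly_append, ih, sum_range_succ]
    simp [poly]

lemma form_comm {G : ι → ι → ℝ} (hs : ∀ x y, G x y = G y x) (f g : MvPolynomial σ ℝ) :
    form idx G f g = form idx G g f := by
  have h : form idx G = (form idx G).flip := ext_mono (idx := idx) fun x =>
    ext_mono (idx := idx) fun y => by simp [form_mono, hs x y]
  exact DFunLike.congr_fun (DFunLike.congr_fun h f) g

lemma form_nonneg {G : ι → ι → ℝ} (hp : ∀ p : List (ι × ℝ), 0 ≤ bil G p p)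
    (f : MvPolynomial σ ℝ) : 0 ≤ form idx G f f := by
  obtain ⟨p, rfl⟩ := exists_poly (idx := idx) f
  exact bil_eq (idx := idx) G p p ▸ hp p

variable {G : ι → ι → ℝ} {D : Derivation ℝ (MvPolynomial σ ℝ) (MvPolynomial σ ℝ)}
  {T : MvPolynomial σ ℝ} {c : ℝ}

lemma form_shift (hsh : ∀ x y, form idx G (mono idx x) (T * mono idx y) =
    form idx G (D (mono idx x)) (mono idx y)) (f g : MvPolynomial σ ℝ) :
    form idx G f (T * g) = form idx G (D f) g := by
  have h : (form idx G).compl₂ (LinearMap.mulLeft ℝ T) = (form idx G).comp D.toLinearMap :=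
    ext_mono (idx := idx) fun x => ext_mono (idx := idx) fun y => by simpa using hsh x y
  simpa using DFunLike.congr_fun (DFunLike.congr_fun h f) g

lemma form_orth (hs : ∀ x y, G x y = G y x)
    (hsh : ∀ f g, form idx G f (T * g) = form idx G (D f) g) (hT : D T = C c)
    {h h' : MvPolynomial σ ℝ} (hh : D h = 0) (hh' : D h' = 0) :
    ∀ s t, form idx G (T ^ t * h) (T ^ s * h') =
      if t = s then c ^ t * (t ! : ℝ) * form idx G h h' else 0 := by
  have hD : ∀ (g : MvPolynomial σ ℝ), D g = 0 → ∀ n : ℕ,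
      D (T ^ n * g) = ((n : ℝ) * c) • (T ^ (n - 1) * g) := by
    intro g hg n
    rw [D.leibniz, hg, smul_zero, zero_add, D.leibniz_pow, hT]
    simp only [smul_eq_mul, nsmul_eq_mul, smul_eq_C_mul, map_mul, map_natCast]
    ring
  intro s
  induction s with
  | zero =>
    intro t
    rcases t with _ | t
    · simp
    · rw [if_neg (by omega), form_comm hs, _root_.pow_succ', mul_assoc, hsh, hD h' hh']
      simp
  | succ s ih =>
    intro t
    rw [_root_.pow_succ' T s, mul_assoc, hsh, hD h hh, map_smul, LinearMap.smul_apply, ih, smul_eq_mul]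
    rcases t with _ | t
    · simp
    · rcases eq_or_ne t s with rfl | hne
      · simp [Nat.factorial_succ]; ring
      · simp [hne]

lemma form_diagonal (hs : ∀ x y, G x y = G y x)
    (hsh : ∀ f g, form idx G f (T * g) = form idx G (D f) g) (hT : D T = C c)
    (h h' : ℕ → MvPolynomial σ ℝ) (hh : ∀ t, D (h t) = 0) (hh' : ∀ t, D (h' t) = 0) (n : ℕ) :
    form idx G (∑ t ∈ range n, T ^ t * h t) (∑ t ∈ range n, T ^ t * h' t) =
      ∑ t ∈ range n, c ^ t * (t ! : ℝ) * form idx G (h t) (h' t) := by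
  simp only [map_sum, LinearMap.sum_apply, form_orth hs hsh hT (hh _) (hh' _)]
  exact sum_congr rfl fun t ht => by simp [mem_range.1 ht]

end Form

section One

open MvPolynomial

/-- Exponents in one particle coordinates. -/
def idx1 : (Fin 2 →₀ ℕ) ≃ X1 where
  toFun m := (m 0, m 1)
  invFun p := Finsupp.equivFunOnFinite.symm ![p.1, p.2]
  left_inv m := by ext j; fin_cases j <;> rfl
  right_inv _ := rfl

lemma mono1 (i a : ℕ) :
    mono idx1 (i, a) = (X 0 ^ i * X 1 ^ a : MvPolynomial (Fin 2) ℝ) := by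
  rw [mono, X_pow_eq_monomial, X_pow_eq_monomial, monomial_mul, one_mul]
  refine congrArg (fun d => monomial d (1 : ℝ)) ?_
  ext j
  fin_cases j <;> simp [idx1] <;> rfl

/-- The total raising of one particle. -/
def tot1 : MvPolynomial (Fin 2) ℝ := X 0 + X 1

/-- The variable killed by raising. -/
def rel1 : MvPolynomial (Fin 2) ℝ := X 0 - 2 * X 1

/-- The lowering derivation of one particle. -/
def low1 : Derivation ℝ (MvPolynomial (Fin 2) ℝ) (MvPolynomial (Fin 2) ℝ) :=
  (2 : ℝ) • pderiv 0 + pderiv 1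

lemma low1_tot : low1 tot1 = C 3 := by
  simp [low1, tot1, smul_eq_C_mul, map_ofNat]; norm_num

lemma low1_rel (M : ℕ) : low1 (rel1 ^ M) = 0 := by
  have h : low1 rel1 = 0 := by
    simp [low1, rel1, two_mul, smul_eq_C_mul, map_ofNat]; ring
  rw [Derivation.leibniz_pow, h, smul_zero, smul_zero]

lemma poly_zeta (M t : ℕ) : poly idx1 (zeta M t) = rel1 ^ M * tot1 ^ t := by
  rw [zeta, poly_flatMap_range, rel1, tot1, sub_eq_add_neg, add_pow, add_pow, sum_mul_sum]
  refine sum_congr rfl fun i _ => ?_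
  rw [poly_map_range]
  refine sum_congr rfl fun s _ => ?_
  simp only [mono1, smul_eq_C_mul, map_mul, map_pow, map_natCast, map_neg, map_ofNat, pow_add]
  rw [neg_mul_eq_neg_mul, mul_pow]
  ring

variable {G1 : X1 → X1 → ℝ} {G2 : X2 → X2 → ℝ} (hG : IsPlanar G1 G2)

include hG

lemma shift_one : ∀ f g, form idx1 G1 f (tot1 * g) = form idx1 G1 (low1 f) g := by
  refine form_shift fun x y => ?_
  obtain ⟨i, a⟩ := x
  obtain ⟨i', a'⟩ := y
  have h1 : tot1 * mono idx1 (i', a') = mono idx1 (i' + 1, a') + mono idx1 (i', a' + 1) := by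
    simp only [mono1, tot1, _root_.pow_succ]; ring
  have h2 : low1 (mono idx1 (i, a)) =
      (2 * (i : ℝ)) • mono idx1 (i - 1, a) + (a : ℝ) • mono idx1 (i, a - 1) := by
    simp [low1, mono1, Derivation.leibniz, Derivation.leibniz_pow, smul_eq_C_mul, map_ofNat]
    ring
  rw [h1, h2]
  simp only [map_add, map_smul, LinearMap.add_apply, LinearMap.smul_apply, form_mono, smul_eq_mul]
  exact hG.shift1 i a i' a'

omit hG in
lemma rho1_eq (M : ℕ) : rho1 G1 M = form idx1 G1 (rel1 ^ M) (rel1 ^ M) := by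
  simp [rho1, bil_eq (idx := idx1), poly_zeta]

omit hG in
lemma expand_mono1 (i a : ℕ) :
    (3 : ℝ) ^ (i + a) • mono idx1 (i, a) = ∑ t ∈ range (i + a + 1),
      tot1 ^ t * ((coef1 i a t : ℝ) • rel1 ^ (i + a - t)) := by
  have h := hom1_prod tot1 rel1 2 1 1 (-1) i a
  simp only [← gen1.eq_1, coeff_gen1] at h
  calc (3 : ℝ) ^ (i + a) • mono idx1 (i, a)
      = (2 * tot1 + rel1) ^ i * (tot1 - rel1) ^ a := by
        rw [show 2 * tot1 + rel1 = 3 * X 0 by simp only [tot1, rel1]; ring,
          show tot1 - rel1 = 3 * X 1 by simp only [tot1, rel1]; ring, mono1]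
        simp only [smul_eq_C_mul, map_mul, map_pow, map_ofNat, mul_pow, pow_add]
        ring
    _ = _ := by
        simp only [Int.cast_ofNat, Int.cast_one, Int.cast_neg, one_mul, neg_one_mul,
          ← sub_eq_add_neg] at h
        rw [← h]
        refine sum_congr rfl fun t _ => ?_
        rw [smul_eq_C_mul, map_intCast]
        ring

lemma expand_one (i a i' a' : ℕ) (hn : i + a = i' + a') :
    (9 : ℝ) ^ (i + a) * G1 (i, a) (i', a') = ∑ t ∈ range (i + a + 1),
      (3 : ℝ) ^ t * (t ! : ℝ) * (coef1 i a t : ℝ) * (coef1 i' a' t : ℝ) *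
        rho1 G1 (i + a - t) := by
  have h : form idx1 G1 ((3 : ℝ) ^ (i + a) • mono idx1 (i, a))
      ((3 : ℝ) ^ (i + a) • mono idx1 (i', a')) = (9 : ℝ) ^ (i + a) * G1 (i, a) (i', a') := by
    simp only [map_smul, LinearMap.smul_apply, form_mono, smul_eq_mul]
    rw [← mul_assoc, ← mul_pow]
    norm_num
  rw [← h, expand_mono1, hn, expand_mono1, form_diagonal hG.symm1 (shift_one hG) low1_tot
    (fun t => (coef1 i a t : ℝ) • rel1 ^ (i' + a' - t))
    (fun t => (coef1 i' a' t : ℝ) • rel1 ^ (i' + a' - t))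
    (fun t => by rw [low1.map_smul, low1_rel, smul_zero])
    (fun t => by rw [low1.map_smul, low1_rel, smul_zero])]
  refine sum_congr rfl fun t _ => ?_
  simp [rho1_eq]
  ring

lemma vanish_one (M : ℕ) (hM : M ∈ ({0, 1, 3} : Finset ℕ)) : rho1 G1 M = 0 := by
  have h : form idx1 G1 (poly idx1 (zeta M 0)) = 0 :=
    ext_mono (idx := idx1) fun y => by rw [form_poly_mono, hG.vanish1 M hM 0 y]; rfl
  simp [rho1, bil_eq (idx := idx1), h]

end One

section Two

open MvPolynomial

/-- Exponents in two particle coordinates. -/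
def idx2 : (Fin 3 →₀ ℕ) ≃ X2 where
  toFun m := (m 0, m 1, m 2)
  invFun p := Finsupp.equivFunOnFinite.symm ![p.1, p.2.1, p.2.2]
  left_inv m := by ext j; fin_cases j <;> rfl
  right_inv _ := rfl

lemma mono2 (i a b : ℕ) :
    mono idx2 (i, a, b) = (X 0 ^ i * X 1 ^ a * X 2 ^ b : MvPolynomial (Fin 3) ℝ) := by
  rw [mono, X_pow_eq_monomial, X_pow_eq_monomial, X_pow_eq_monomial, monomial_mul, monomial_mul,
    one_mul, one_mul]
  refine congrArg (fun d => monomial d (1 : ℝ)) ?_
  ext j
  fin_cases j <;> simp [idx2] <;> rfl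

/-- The total raising of two particles. -/
def tot2 : MvPolynomial (Fin 3) ℝ := X 0 + X 1 + X 2

/-- The relative centre variable. -/
def xv : MvPolynomial (Fin 3) ℝ := X 0 - X 1 - X 2

/-- The relative pair variable. -/
def ev : MvPolynomial (Fin 3) ℝ := X 1 - X 2

/-- The lowering derivation of two particles. -/
def low2 : Derivation ℝ (MvPolynomial (Fin 3) ℝ) (MvPolynomial (Fin 3) ℝ) :=
  (2 : ℝ) • pderiv 0 + pderiv 1 + pderiv 2

lemma low2_tot : low2 tot2 = C 4 := by
  simp [low2, tot2, smul_eq_C_mul, map_ofNat]; norm_num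

lemma low2_rel (p q : ℕ) : low2 (xv ^ p * ev ^ q) = 0 := by
  have h1 : low2 xv = 0 := by
    simp [low2, xv, smul_eq_C_mul, map_ofNat]; ring
  have h2 : low2 ev = 0 := by
    simp [low2, ev]
  rw [Derivation.leibniz, Derivation.leibniz_pow, Derivation.leibniz_pow, h1, h2]
  simp

lemma poly_xiEta (L q : ℕ) : poly idx2 (xiEta L q) = xv ^ (L - q) * ev ^ q := by
  have hx : xv = X 0 + -(X 1 + X 2) := by simp only [xv]; ring
  have he : ev = X 1 + -X 2 := by simp only [ev]; ring
  rw [xiEta, poly_flatMap_range, hx, he, add_pow, sum_mul]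
  refine sum_congr rfl fun i _ => ?_
  rw [poly_flatMap_range, neg_pow (X 1 + X 2 : MvPolynomial (Fin 3) ℝ),
    add_pow (X 1 : MvPolynomial (Fin 3) ℝ) (X 2), mul_sum, mul_sum, sum_mul, sum_mul]
  refine sum_congr rfl fun s _ => ?_
  rw [poly_map_range, add_pow, mul_sum]
  refine sum_congr rfl fun r _ => ?_
  simp only [mono2, smul_eq_C_mul, map_mul, map_pow, map_natCast, map_neg, map_one, pow_add]
  rw [neg_pow (X 2 : MvPolynomial (Fin 3) ℝ) (q - r)]
  ring

lemma poly_pairPoly (L : ℕ) : poly idx2 (pairPoly L) = xv ^ L * ev := by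
  have hx : xv = X 0 + -(X 1 + X 2) := by simp only [xv]; ring
  rw [pairPoly, poly_flatMap_range, hx, add_pow, sum_mul]
  refine sum_congr rfl fun i _ => ?_
  rw [poly_flatMap_range, neg_pow (X 1 + X 2 : MvPolynomial (Fin 3) ℝ),
    add_pow (X 1 : MvPolynomial (Fin 3) ℝ) (X 2), mul_sum, mul_sum, sum_mul, sum_mul]
  refine sum_congr rfl fun s _ => ?_
  simp only [poly_cons, mono2, ev, smul_eq_C_mul, map_mul, map_pow, map_natCast, map_neg, map_one,
    _root_.pow_succ]
  simp only [poly, List.map_nil, List.sum_nil, add_zero]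
  ring

lemma sum_kvec {L M : ℕ} (hM : M ≤ L) :
    ∑ q ∈ range (L + 1), (kvec L M q : ℝ) • (xv ^ (L - q) * ev ^ q) =
      (xv - ev) ^ M * (xv + 2 * ev) ^ (L - M) := by
  have h := hom1_prod ev xv (-1) 1 2 1 M (L - M)
  rw [show M + (L - M) = L by omega] at h
  calc ∑ q ∈ range (L + 1), (kvec L M q : ℝ) • (xv ^ (L - q) * ev ^ q)
      = _ := sum_congr rfl fun q _ => ?_
    _ = _ := h
    _ = _ := by simp; ring
  have hc : ((lin1 (-1) 1 ^ M * lin1 2 1 ^ (L - M)).coeff q) = kvec L M q := by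
    rw [Polynomial.coeff_mul, Finset.Nat.sum_antidiagonal_eq_sum_range_succ_mk, kvec]
    refine sum_congr rfl fun r _ => ?_
    rw [lin1, lin1, coeff_lin, coeff_lin]
    ring
  rw [hc, smul_eq_C_mul, map_intCast]
  ring

variable {G1 : X1 → X1 → ℝ} {G2 : X2 → X2 → ℝ} (hG : IsPlanar G1 G2)

include hG

lemma shift_two : ∀ f g, form idx2 G2 f (tot2 * g) = form idx2 G2 (low2 f) g := by
  refine form_shift fun x y => ?_
  obtain ⟨i, a, b⟩ := x
  obtain ⟨i', a', b'⟩ := y
  have h1 : tot2 * mono idx2 (i', a', b') = mono idx2 (i' + 1, a', b') +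
      mono idx2 (i', a' + 1, b') + mono idx2 (i', a', b' + 1) := by
    simp only [mono2, tot2, _root_.pow_succ]; ring
  have h2 : low2 (mono idx2 (i, a, b)) = (2 * (i : ℝ)) • mono idx2 (i - 1, a, b) +
      (a : ℝ) • mono idx2 (i, a - 1, b) + (b : ℝ) • mono idx2 (i, a, b - 1) := by
    simp [low2, mono2, Derivation.leibniz, Derivation.leibniz_pow, smul_eq_C_mul, map_ofNat]
    ring
  rw [h1, h2]
  simp only [map_add, map_smul, LinearMap.add_apply, LinearMap.smul_apply, form_mono, smul_eq_mul]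
  exact hG.shift2 i a b i' a' b'

omit hG in
lemma rho2_eq (L q q' : ℕ) : rho2 G2 L q q' =
    form idx2 G2 (xv ^ (L - q) * ev ^ q) (xv ^ (L - q') * ev ^ q') := by
  simp [rho2, bil_eq (idx := idx2), poly_xiEta]

omit hG in
lemma expand_mono2 (i a b : ℕ) :
    (4 : ℝ) ^ (i + a + b) • mono idx2 (i, a, b) = ∑ t ∈ range (i + a + b + 1), tot2 ^ t *
      ∑ q ∈ range (i + a + b - t + 1),
        (coef2 i a b t q : ℝ) • (xv ^ (i + a + b - t - q) * ev ^ q) := by
  have h := hom2_gen2 tot2 xv ev i a b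
  calc (4 : ℝ) ^ (i + a + b) • mono idx2 (i, a, b)
      = (2 * tot2 + 2 * xv) ^ i * (tot2 - xv + 2 * ev) ^ a * (tot2 - xv - 2 * ev) ^ b := by
        rw [show 2 * tot2 + 2 * xv = 4 * X 0 by simp only [tot2, xv]; ring,
          show tot2 - xv + 2 * ev = 4 * X 1 by simp only [tot2, xv, ev]; ring,
          show tot2 - xv - 2 * ev = 4 * X 2 by simp only [tot2, xv, ev]; ring, mono2]
        simp only [smul_eq_C_mul, map_mul, map_pow, map_ofNat, mul_pow, pow_add]
        ring
    _ = _ := by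
        rw [← h]
        simp only [smul_eq_C_mul, map_intCast]

lemma expand_two (i a b i' a' b' : ℕ) (hn : i + a + b = i' + a' + b') :
    (16 : ℝ) ^ (i + a + b) * G2 (i, a, b) (i', a', b') =
    ∑ t ∈ range (i + a + b + 1), (4 : ℝ) ^ t * (t ! : ℝ) *
      ∑ q ∈ range (i + a + b - t + 1), ∑ q' ∈ range (i + a + b - t + 1),
        (coef2 i a b t q : ℝ) * (coef2 i' a' b' t q' : ℝ) * rho2 G2 (i + a + b - t) q q' := by
  have h : form idx2 G2 ((4 : ℝ) ^ (i + a + b) • mono idx2 (i, a, b))
      ((4 : ℝ) ^ (i + a + b) • mono idx2 (i', a', b')) =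
      (16 : ℝ) ^ (i + a + b) * G2 (i, a, b) (i', a', b') := by
    simp only [map_smul, LinearMap.smul_apply, form_mono, smul_eq_mul]
    rw [← mul_assoc, ← mul_pow]
    norm_num
  rw [← h, expand_mono2, hn, expand_mono2, form_diagonal hG.symm2 (shift_two hG) low2_tot _ _
    (fun t => by rw [map_sum]; exact sum_eq_zero fun q _ => by rw [low2.map_smul, low2_rel, smul_zero])
    (fun t => by rw [map_sum]; exact sum_eq_zero fun q _ => by rw [low2.map_smul, low2_rel, smul_zero])]
  refine sum_congr rfl fun t _ => ?_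
  congr 1
  simp only [map_sum, LinearMap.sum_apply, map_smul, LinearMap.smul_apply, rho2_eq, smul_eq_mul,
    mul_sum]
  rw [sum_comm]
  exact sum_congr rfl fun q _ => sum_congr rfl fun q' _ => by ring

lemma form_swap (f g : MvPolynomial (Fin 3) ℝ) :
    form idx2 G2 (rename (Equiv.swap (1 : Fin 3) 2) f) g = -form idx2 G2 f g := by
  have h : (form idx2 G2).comp (rename (Equiv.swap (1 : Fin 3) 2)).toLinearMap = -form idx2 G2 :=
    ext_mono (idx := idx2) fun ⟨i, a, b⟩ => ext_mono (idx := idx2) fun y => by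
      have hs : rename (Equiv.swap (1 : Fin 3) 2) (mono idx2 (i, a, b)) = mono idx2 (i, b, a) := by
        simp [mono2, Equiv.swap_apply_of_ne_of_ne]
        ring
      simp [hs, form_mono, hG.anti i b a y]
  simpa using DFunLike.congr_fun (DFunLike.congr_fun h f) g

lemma vanish_two {M : ℕ} (hM : M ∈ ({0, 1, 3} : Finset ℕ)) (k s : ℕ) :
    form idx2 G2 ((X 0 - 2 * X 1) ^ M * (X 0 + X 1) ^ k * X 2 ^ s) = 0 := by
  let p : List (X2 × ℝ) := (zeta M k).map fun x => ((x.1.1, x.1.2, s), x.2)
  have hp : ∀ l : List (X1 × ℝ), poly idx2 (l.map fun x => ((x.1.1, x.1.2, s), x.2)) =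
      rename Fin.castSucc (poly idx1 l) * X 2 ^ s := by
    intro l
    induction l with
    | nil => simp [poly]
    | cons x l ih =>
      obtain ⟨⟨i, a⟩, w⟩ := x
      simp [poly_cons, ih, mono1, mono2, add_mul]
  have hpoly : poly idx2 p = (X 0 - 2 * X 1) ^ M * (X 0 + X 1) ^ k * X 2 ^ s := by
    rw [hp, poly_zeta]
    simp [rel1, tot1, map_ofNat]
  rw [← hpoly]
  refine ext_mono (idx := idx2) fun y => ?_
  rw [form_poly_mono, List.map_map]
  exact hG.vanish2 M hM k s y

lemma zero_two {M : ℕ} (hM : M ∈ ({0, 1, 3} : Finset ℕ)) (L : ℕ)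
    (h : MvPolynomial (Fin 3) ℝ) :
    form idx2 G2 ((xv - ev) ^ M * (xv + 2 * ev) ^ (L - M)) h = 0 := by
  rw [show xv - ev = X 0 - 2 * X 1 by simp only [xv, ev]; ring,
    show xv + 2 * ev = (X 0 + X 1) + C (-3) * X 2 by
      simp only [xv, ev, map_neg, map_ofNat]; ring, add_pow, mul_sum, map_sum,
    LinearMap.sum_apply]
  refine sum_eq_zero fun k _ => ?_
  rw [show ((X 0 - 2 * X 1) ^ M * ((X 0 + X 1) ^ k * (C (-3) * X 2) ^ (L - M - k) *
      ((L - M).choose k : MvPolynomial (Fin 3) ℝ))) = ((-3 : ℝ) ^ (L - M - k) * ((L - M).choose k : ℝ)) •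
        ((X 0 - 2 * X 1) ^ M * (X 0 + X 1) ^ k * X 2 ^ (L - M - k)) by
    simp only [smul_eq_C_mul, map_mul, map_pow, map_natCast, mul_pow]; ring,
    map_smul, LinearMap.smul_apply, vanish_two hG hM, LinearMap.zero_apply, smul_zero]

/-- The planar limit in translation adapted coordinates. -/
theorem coord : CoordTarget G1 G2 where
  expand1 := expand_one hG
  expand2 := expand_two hG
  nonneg1 M := hG.psd1 _
  zero1 := vanish_one hG
  symm2 L q q' _ _ := by rw [rho2_eq, rho2_eq, form_comm hG.symm2]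
  even2 L q q' _ _ hq := by
    have h : rename (Equiv.swap (1 : Fin 3) 2) (xv ^ (L - q) * ev ^ q) = xv ^ (L - q) * ev ^ q := by
      have h1 : rename (Equiv.swap (1 : Fin 3) 2) xv = xv := by
        simp [xv, Equiv.swap_apply_of_ne_of_ne]; ring
      have h2 : rename (Equiv.swap (1 : Fin 3) 2) ev = -ev := by
        simp [ev]
      rw [map_mul, map_pow, map_pow, h1, h2, hq.neg_pow]
    have h' := form_swap hG (xv ^ (L - q) * ev ^ q) (xv ^ (L - q') * ev ^ q')
    rw [h, ← rho2_eq] at h'
    linarith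
  psd2 L w := by
    have h := form_nonneg (idx := idx2) hG.psd2
      (∑ q ∈ range (L + 1), w q • (xv ^ (L - q) * ev ^ q))
    simp only [map_sum, LinearMap.sum_apply, map_smul, LinearMap.smul_apply, ← rho2_eq,
      smul_eq_mul, mul_sum] at h
    refine h.trans_eq ?_
    rw [sum_comm]
    exact sum_congr rfl fun q _ => sum_congr rfl fun q' _ => by ring
  zero2 M hM L hL q' _ := by
    have h : form idx2 G2 (∑ q ∈ range (L + 1), (kvec L M q : ℝ) • (xv ^ (L - q) * ev ^ q))
        (xv ^ (L - q') * ev ^ q') = 0 := by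
      rw [sum_kvec hL, zero_two hG hM L]
    simpa only [map_sum, LinearMap.sum_apply, map_smul, LinearMap.smul_apply, ← rho2_eq,
      smul_eq_mul] using h
  pair2 L := by
    rw [bil_eq (idx := idx2), poly_pairPoly, rho2_eq]
    simp

end Two

end

end Vale.Agent.P359.Gap
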