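import Vale.Agent.P359.Gap.Planar
import Mathlib.Algebra.BigOperators.Intervals

/-!
# P359 gap: coordinates adapted to translations

`3 C = 2 T + z`, `3 a = T - z` for one particle and
`4 C = 2 T + 2 x`, `4 a = T - x + 2 e`, `4 b = T - x - 2 e` for two.
-/

namespace Vale.Agent.P359.Gap

open Finset Nat

/-- The coefficient of `T ^ t * z ^ (i + a - t)` in `3 ^ (i + a) * C ^ i * a ^ a`. -/
def coef1 (i a t : ℕ) : ℤ :=
  ∑ s ∈ range (t + 1), (i.choose s : ℤ) * 2 ^ s * (a.choose (t - s) : ℤ) * (-1) ^ (a - (t - s))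

/-- The coefficient of `T ^ t * x ^ (i + a + b - t - q) * e ^ q` in
`4 ^ (i + a + b) * C ^ i * a ^ a * b ^ b`. -/
def coef2 (i a b t q : ℕ) : ℤ :=
  2 ^ i * ∑ s ∈ range (t + 1), (i.choose s : ℤ) * ∑ u ∈ range (t - s + 1), ∑ r ∈ range (q + 1),
    ((a.choose u : ℤ) * ((a - u).choose r : ℤ) * 2 ^ r * (-1) ^ (a - u - r)) *
    ((b.choose (t - s - u) : ℤ) * ((b - (t - s - u)).choose (q - r) : ℤ) * (-2) ^ (q - r) *
      (-1) ^ (b - (t - s - u) - (q - r)))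

noncomputable section

/-- Coefficients of `(C - a - b) ^ (L - q) * (a - b) ^ q`. -/
def xiEta (L q : ℕ) : List (X2 × ℝ) :=
  (List.range (L - q + 1)).flatMap fun i => (List.range (L - q - i + 1)).flatMap fun s =>
    (List.range (q + 1)).map fun r =>
      ((i, s + r, (L - q - i - s) + (q - r)),
        ((L - q).choose i : ℝ) * (-1) ^ (L - q - i) * ((L - q - i).choose s : ℝ) *
          (q.choose r : ℝ) * (-1) ^ (q - r))

/-- One particle data of a planar limit on the vectors killed by raising. -/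
def rho1 (G1 : X1 → X1 → ℝ) (M : ℕ) : ℝ := bil G1 (zeta M 0) (zeta M 0)

/-- Two particle data of a planar limit on the vectors killed by raising. -/
def rho2 (G2 : X2 → X2 → ℝ) (L q q' : ℕ) : ℝ := bil G2 (xiEta L q) (xiEta L q')

end

end Vale.Agent.P359.Gap

namespace Vale.Agent.P359.Gap

open Finset Nat

/-- The coefficient of `x ^ (L - q) * e ^ q` in `(x - e) ^ M * (x + 2 e) ^ (L - M)`. -/
def kvec (L M q : ℕ) : ℤ :=
  ∑ r ∈ range (q + 1), (M.choose r : ℤ) * (-1) ^ r * ((L - M).choose (q - r) : ℤ) * 2 ^ (q - r)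

/-- Module Coordinates: the planar limit in translation adapted coordinates. -/
structure CoordTarget (G1 : X1 → X1 → ℝ) (G2 : X2 → X2 → ℝ) : Prop where
  expand1 : ∀ i a i' a', i + a = i' + a' → (9 : ℝ) ^ (i + a) * G1 (i, a) (i', a') =
    ∑ t ∈ range (i + a + 1), (3 : ℝ) ^ t * (t ! : ℝ) * (coef1 i a t : ℝ) * (coef1 i' a' t : ℝ) *
      rho1 G1 (i + a - t)
  expand2 : ∀ i a b i' a' b', i + a + b = i' + a' + b' →
    (16 : ℝ) ^ (i + a + b) * G2 (i, a, b) (i', a', b') =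
    ∑ t ∈ range (i + a + b + 1), (4 : ℝ) ^ t * (t ! : ℝ) *
      ∑ q ∈ range (i + a + b - t + 1), ∑ q' ∈ range (i + a + b - t + 1),
        (coef2 i a b t q : ℝ) * (coef2 i' a' b' t q' : ℝ) * rho2 G2 (i + a + b - t) q q'
  nonneg1 : ∀ M, 0 ≤ rho1 G1 M
  zero1 : ∀ M ∈ ({0, 1, 3} : Finset ℕ), rho1 G1 M = 0
  symm2 : ∀ L q q', q ≤ L → q' ≤ L → rho2 G2 L q q' = rho2 G2 L q' q
  even2 : ∀ L q q', q ≤ L → q' ≤ L → Even q → rho2 G2 L q q' = 0
  psd2 : ∀ L (w : ℕ → ℝ), 0 ≤ ∑ q ∈ range (L + 1), ∑ q' ∈ range (L + 1), w q * w q' * rho2 G2 L q q'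
  zero2 : ∀ M ∈ ({0, 1, 3} : Finset ℕ), ∀ L, M ≤ L → ∀ q', q' ≤ L →
    ∑ q ∈ range (L + 1), (kvec L M q : ℝ) * rho2 G2 L q q' = 0
  pair2 : ∀ L, bil G2 (pairPoly L) (pairPoly L) = rho2 G2 (L + 1) 1 1

end Vale.Agent.P359.Gap
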