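import Vale.Agent.P359.Proj
import Vale.Agent.P359.Gap.Sphere
import Mathlib.Data.Nat.Choose.Vandermonde
import Mathlib.Algebra.BigOperators.NatAntidiagonal

/-!
# P359 gap: the orthonormal basis of total spin `Q - 1` in a pair

`pc Q C` is orthonormal, antisymmetric, intertwines the lowering operators, and spans the range of
`pairProj Q`, so that projection has the entries `Pr Q`.
-/

namespace Vale.Agent.P359.Gap

open Matrix Finset

noncomputable section

variable {Q : ℕ}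

/-- The squared lengths before normalisation. -/
lemma antidiag_sq (p C : ℕ) :
    ∑ x ∈ antidiagonal (C + 1),
      ((x.2 : ℝ) - x.1) ^ 2 * ((((p + 1).choose x.1 : ℕ) : ℝ) * (((p + 1).choose x.2 : ℕ) : ℝ)) =
    2 * ((p : ℝ) + 1) * (((2 * p).choose C : ℕ) : ℝ) := by
  have h0 : ∀ A B m : ℕ, ∑ x ∈ antidiagonal m, ((A.choose x.1 : ℕ) : ℝ) * ((B.choose x.2 : ℕ) : ℝ) =
      (((A + B).choose m : ℕ) : ℝ) := by
    intro A B m
    rw [Nat.add_choose_eq]
    push_cast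
    rfl
  have hstep : ∀ a : ℕ, ((a : ℝ) + 1) * (((p + 1).choose (a + 1) : ℕ) : ℝ) =
      ((p : ℝ) + 1) * ((p.choose a : ℕ) : ℝ) := by
    intro a
    have := congrArg (fun k : ℕ => (k : ℝ)) (Nat.add_one_mul_choose_eq p a)
    push_cast at this
    linarith
  have e1 : ∑ x ∈ antidiagonal (C + 1), (x.1 : ℝ) * (x.2 : ℝ) *
      ((((p + 1).choose x.1 : ℕ) : ℝ) * (((p + 1).choose x.2 : ℕ) : ℝ)) =
      if C = 0 then 0 else ((p : ℝ) + 1) ^ 2 * (((2 * p).choose (C - 1) : ℕ) : ℝ) := by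
    rcases C with _ | j
    · simp [Finset.Nat.sum_antidiagonal_succ]
    · rw [if_neg (Nat.succ_ne_zero j), Finset.Nat.sum_antidiagonal_succ,
        Finset.Nat.sum_antidiagonal_succ', add_tsub_cancel_right, two_mul p, ← h0 p p j,
        Finset.mul_sum]
      simp only [Nat.cast_zero, zero_mul, mul_zero, zero_add, Nat.cast_add, Nat.cast_one]
      refine Finset.sum_congr rfl fun x _ => ?_
      linear_combination ((x.2 : ℝ) + 1) * (((p + 1).choose (x.2 + 1) : ℕ) : ℝ) * hstep x.1 +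
        ((p : ℝ) + 1) * ((p.choose x.1 : ℕ) : ℝ) * hstep x.2
  have e2 : ∑ x ∈ antidiagonal (C + 1),
      ((x.2 : ℝ) - x.1) ^ 2 * ((((p + 1).choose x.1 : ℕ) : ℝ) * (((p + 1).choose x.2 : ℕ) : ℝ)) =
      ((C : ℝ) + 1) ^ 2 * (((p + 1 + (p + 1)).choose (C + 1) : ℕ) : ℝ) -
      4 * ∑ x ∈ antidiagonal (C + 1), (x.1 : ℝ) * (x.2 : ℝ) *
        ((((p + 1).choose x.1 : ℕ) : ℝ) * (((p + 1).choose x.2 : ℕ) : ℝ)) := by
    rw [← h0, Finset.mul_sum, Finset.mul_sum, ← Finset.sum_sub_distrib]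
    refine Finset.sum_congr rfl fun x hx => ?_
    have h : (x.1 : ℝ) + x.2 = (C : ℝ) + 1 := by exact_mod_cast mem_antidiagonal.1 hx
    rw [← h]
    ring
  rw [e2, e1]
  have t1 : ((C : ℝ) + 1) * (((2 * p + 1 + 1).choose (C + 1) : ℕ) : ℝ) =
      (2 * (p : ℝ) + 2) * (((2 * p + 1).choose C : ℕ) : ℝ) := by
    have := congrArg (fun k : ℕ => (k : ℝ)) (Nat.add_one_mul_choose_eq (2 * p + 1) C)
    push_cast at this
    linarith
  rw [show p + 1 + (p + 1) = 2 * p + 1 + 1 by omega]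
  rcases C with _ | j
  · rw [if_pos rfl]
    simp only [zero_add, Nat.choose_zero_right, Nat.choose_one_right]
    push_cast
    ring
  · rw [if_neg (Nat.succ_ne_zero j), add_tsub_cancel_right]
    have t2 : (((2 * p + 1).choose (j + 1) : ℕ) : ℝ) =
        (((2 * p).choose j : ℕ) : ℝ) + (((2 * p).choose (j + 1) : ℕ) : ℝ) := by
      rw [Nat.choose_succ_succ' (2 * p) j]; push_cast; rfl
    have t3 : (((2 * p).choose (j + 1) : ℕ) : ℝ) * ((j : ℝ) + 1) =
        (((2 * p).choose j : ℕ) : ℝ) * (2 * (p : ℝ) - j) := by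
      rcases le_or_gt j (2 * p) with h | h
      · have := congrArg (fun k : ℕ => (k : ℝ)) (Nat.choose_succ_right_eq (2 * p) j)
        push_cast [Nat.cast_sub h] at this
        linarith
      · rw [Nat.choose_eq_zero_of_lt h, Nat.choose_eq_zero_of_lt (by omega)]; simp
    push_cast at t1 ⊢
    linear_combination ((j : ℝ) + 1 + 1) * t1 + (2 * (p : ℝ) + 2) * ((j : ℝ) + 2) * t2 +
      (2 * (p : ℝ) + 2) * t3

lemma low_top (A : ℕ) : low A A = 0 := by simp [low]

lemma low_choose {A a : ℕ} (h : a < A) :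
    low A a * Real.sqrt (A.choose a) = ((a : ℝ) + 1) * Real.sqrt (A.choose (a + 1)) := by
  have := wt_pred h
  simp only [wt] at this
  rw [low, ← this]
  congr 2
  push_cast
  ring

lemma pc_eq_zero {C : CI Q} {a b : UI Q} (h : (a : ℕ) + b ≠ (C : ℕ) + 1) : pc Q C a b = 0 :=
  if_neg h

lemma pc_swap (C : CI Q) (a b : UI Q) : pc Q C b a = -pc Q C a b := by
  simp only [pc, add_comm (b : ℕ) a, mul_comm ((Q.choose b : ℕ) : ℝ)]
  split_ifs <;> ring

lemma pc_self (C : CI Q) (a : UI Q) : pc Q C a a = 0 := by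
  linarith [pc_swap C a a]

/-- The common factor of `pc`. -/
def pcNorm (Q C : ℕ) : ℝ := Real.sqrt (2 * (Q : ℝ) * (((2 * Q - 2).choose C : ℕ) : ℝ))

lemma pcNorm_pos (hQ : 0 < Q) (C : CI Q) : 0 < pcNorm Q C := by
  refine Real.sqrt_pos.2 (mul_pos (by positivity) ?_)
  exact_mod_cast Nat.choose_pos (show (C : ℕ) ≤ 2 * Q - 2 by omega)

lemma pc_eq (C : CI Q) (a b : UI Q) : pc Q C a b =
    if (a : ℕ) + b = (C : ℕ) + 1 then
      ((b : ℕ) - (a : ℕ) : ℝ) * (wt Q a * wt Q b) / pcNorm Q C else 0 := by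
  rw [pc, pcNorm, wt, wt, Real.sqrt_div (by positivity), Real.sqrt_mul (Nat.cast_nonneg _)]
  split_ifs <;> ring

/-- `pc` is orthonormal. -/
theorem pc_orth (hQ : 0 < Q) (C C' : CI Q) :
    ∑ a : UI Q, ∑ b : UI Q, pc Q C a b * pc Q C' a b = if C = C' then 1 else 0 := by
  split_ifs with hC
  swap
  · refine Finset.sum_eq_zero fun a _ => Finset.sum_eq_zero fun b _ => ?_
    by_cases h : (a : ℕ) + b = (C : ℕ) + 1
    · rw [pc_eq_zero (C := C') (fun e => hC (Fin.ext (by omega))), mul_zero]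
    · rw [pc_eq_zero h, zero_mul]
  subst hC
  obtain ⟨p, rfl⟩ : ∃ p, Q = p + 1 := ⟨Q - 1, by omega⟩
  let g : ℕ × ℕ → ℝ := fun x =>
    ((x.2 : ℝ) - x.1) ^ 2 * ((((p + 1).choose x.1 : ℕ) : ℝ) * (((p + 1).choose x.2 : ℕ) : ℝ))
  have h : ∀ a b : UI (p + 1), pc (p + 1) C a b * pc (p + 1) C a b =
      (if (a : ℕ) + b = (C : ℕ) + 1 then g ((a : ℕ), (b : ℕ)) else 0) / pcNorm (p + 1) C ^ 2 := by
    intro a b
    rw [pc_eq]
    split_ifs
    · rw [div_mul_div_comm, pow_two (pcNorm (p + 1) C)]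
      congr 1
      simp only [g, wt]
      linear_combination
        ((b : ℕ) - (a : ℕ) : ℝ) ^ 2 * Real.sqrt ((p + 1).choose b) ^ 2 *
          Real.sq_sqrt (Nat.cast_nonneg' (α := ℝ) ((p + 1).choose a)) +
        ((b : ℕ) - (a : ℕ) : ℝ) ^ 2 * ((((p + 1).choose a : ℕ) : ℝ)) *
          Real.sq_sqrt (Nat.cast_nonneg' (α := ℝ) ((p + 1).choose b))
    · simp
  simp only [h, ← Finset.sum_div]
  rw [div_eq_one_iff_eq (pow_pos (pcNorm_pos hQ C) 2).ne', pcNorm,
    Real.sq_sqrt (by positivity)]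
  have e : ∑ a : UI (p + 1), ∑ b : UI (p + 1),
      (if (a : ℕ) + b = (C : ℕ) + 1 then g ((a : ℕ), (b : ℕ)) else 0) =
      ∑ x ∈ antidiagonal ((C : ℕ) + 1), g x := by
    rw [← Fintype.sum_prod_type'
      (f := fun a b : UI (p + 1) => if (a : ℕ) + b = (C : ℕ) + 1 then g ((a : ℕ), (b : ℕ)) else 0),
      ← Finset.sum_filter]
    have hz : ∀ x ∈ antidiagonal ((C : ℕ) + 1), g x ≠ 0 → x.1 ≤ p + 1 ∧ x.2 ≤ p + 1 := by
      intro x _ hx
      constructor <;> (by_contra hh; apply hx; simp [g, Nat.choose_eq_zero_of_lt (not_le.1 hh)])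
    rw [← Finset.sum_filter_of_ne hz]
    refine Finset.sum_bij' (fun x _ => ((x.1 : ℕ), (x.2 : ℕ)))
      (fun x hx => (⟨x.1, by simp at hx; omega⟩, ⟨x.2, by simp at hx; omega⟩))
      (fun x hx => by simp at hx ⊢; omega) (fun x hx => by simp at hx ⊢; omega)
      (fun _ _ => rfl) (fun _ _ => rfl) (fun _ _ => rfl)
  rw [e, antidiag_sq]
  have h2 : 2 * (p + 1) - 2 = 2 * p := by omega
  simp only [h2]
  push_cast
  ring

/-- The lowering operator in coordinates. -/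
lemma down_sum (A : ℕ) (i : Fin (A + 1)) (g : Fin (A + 1) → ℝ) :
    ∑ j, down A i j * g j =
      if h : 0 < (i : ℕ) then low A ((i : ℕ) - 1) * g ⟨(i : ℕ) - 1, by omega⟩ else 0 := by
  split_ifs with h
  · rw [Finset.sum_eq_single ⟨(i : ℕ) - 1, by omega⟩]
    · rw [down, if_pos (by simp only; omega)]
    · intro b _ hb
      rw [down, if_neg, zero_mul]
      exact fun e => hb (Fin.ext (by simp only; omega))
    · simp
  · refine Finset.sum_eq_zero fun b _ => ?_
    rw [down, if_neg (by omega), zero_mul]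

/-- The lowering operator of two spins in coordinates. -/
lemma down2_mulVec (A B : ℕ) (f : Fin (A + 1) × Fin (B + 1) → ℝ)
    (x : Fin (A + 1) × Fin (B + 1)) : (down2 A B *ᵥ f) x =
      (∑ i, down A x.1 i * f (i, x.2)) + ∑ j, down B x.2 j * f (x.1, j) := by
  simp only [mulVec, dotProduct, down2, add_mul, ite_mul, zero_mul, Finset.sum_add_distrib,
    Fintype.sum_prod_type]
  congr 1
  · refine Finset.sum_congr rfl fun i _ => ?_
    simp
  · rw [Finset.sum_comm]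
    refine Finset.sum_congr rfl fun j _ => ?_
    simp

/-- Lowering sends `pc C` to a multiple of `pc (C + 1)`. -/
theorem pc_down (hQ : 0 < Q) (C : CI Q) :
    (down2 Q Q *ᵥ fun x => pc Q C x.1 x.2) = fun x =>
      if h : (C : ℕ) < 2 * Q - 2 then
        low (2 * Q - 2) C * pc Q ⟨(C : ℕ) + 1, by omega⟩ x.1 x.2 else 0 := by
  funext ⟨a, b⟩
  rw [down2_mulVec, down_sum, down_sum]
  by_cases hab : (a : ℕ) + b = (C : ℕ) + 2
  swap
  · have z1 : ∀ h : 0 < (a : ℕ), pc Q C ⟨(a : ℕ) - 1, by omega⟩ b = 0 :=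
      fun h => pc_eq_zero (by simp only; omega)
    have z2 : ∀ h : 0 < (b : ℕ), pc Q C a ⟨(b : ℕ) - 1, by omega⟩ = 0 :=
      fun h => pc_eq_zero (by simp only; omega)
    simp only
    have z3 : ∀ h : (C : ℕ) < 2 * Q - 2, pc Q ⟨(C : ℕ) + 1, by omega⟩ a b = 0 :=
      fun h => pc_eq_zero (by simp only; omega)
    split_ifs with h1 h2 h3 h2 h3 h3 <;> simp [*]
  have hw : ∀ k : ℕ, k < Q → low Q k * wt Q k = ((k : ℝ) + 1) * wt Q (k + 1) :=
    fun k hk => low_choose hk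
  have ea : (if h : 0 < (a : ℕ) then low Q ((a : ℕ) - 1) * pc Q C ⟨(a : ℕ) - 1, by omega⟩ b else 0)
      = (a : ℕ) * ((b : ℕ) - (a : ℕ) + 1) * (wt Q a * wt Q b) / pcNorm Q C := by
    split_ifs with h
    · obtain ⟨k, hk⟩ : ∃ k, (a : ℕ) = k + 1 := ⟨(a : ℕ) - 1, by omega⟩
      rw [pc_eq, if_pos (by simp only; omega)]
      simp only [hk, add_tsub_cancel_right]
      push_cast
      linear_combination (((b : ℕ) : ℝ) - k) * wt Q b / pcNorm Q C * hw k (by omega)
    · rw [show (a : ℕ) = 0 by omega]; simp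
  have eb : (if h : 0 < (b : ℕ) then low Q ((b : ℕ) - 1) * pc Q C a ⟨(b : ℕ) - 1, by omega⟩ else 0)
      = (b : ℕ) * ((b : ℕ) - 1 - (a : ℕ)) * (wt Q a * wt Q b) / pcNorm Q C := by
    split_ifs with h
    · obtain ⟨k, hk⟩ : ∃ k, (b : ℕ) = k + 1 := ⟨(b : ℕ) - 1, by omega⟩
      rw [pc_eq, if_pos (by simp only; omega)]
      simp only [hk, add_tsub_cancel_right]
      push_cast
      linear_combination ((k : ℝ) - (a : ℕ)) * wt Q a / pcNorm Q C * hw k (by omega)
    · rw [show (b : ℕ) = 0 by omega]; simp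
  simp only
  rw [ea, eb, ← add_div]
  have hsum : ((a : ℕ) : ℝ) + (b : ℕ) = ((C : ℕ) : ℝ) + 2 := by exact_mod_cast hab
  split_ifs with h
  · have hn : pcNorm Q C * (((C : ℕ) : ℝ) + 1) * pcNorm Q ((C : ℕ) + 1) =
        pcNorm Q C * (low (2 * Q - 2) C * pcNorm Q C) := by
      rw [mul_assoc]
      congr 1
      simp only [pcNorm, Real.sqrt_mul (show (0 : ℝ) ≤ 2 * Q by positivity)]
      linear_combination -Real.sqrt (2 * (Q : ℝ)) * low_choose h
    have hn' : low (2 * Q - 2) C / pcNorm Q ((C : ℕ) + 1) = (((C : ℕ) : ℝ) + 1) / pcNorm Q C := by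
      have p0 := (pcNorm_pos hQ C).ne'
      have p1 : pcNorm Q ((C : ℕ) + 1) ≠ 0 := (pcNorm_pos hQ ⟨(C : ℕ) + 1, by omega⟩).ne'
      rw [div_eq_div_iff p1 p0]
      linarith [mul_left_cancel₀ p0 ((mul_assoc _ _ _).symm.trans hn)]
    rw [pc_eq, if_pos (by simp only; omega)]
    simp only
    rw [mul_div_left_comm, hn', mul_div_assoc']
    congr 1
    have hs' : ((b : ℕ) : ℝ) = ((C : ℕ) : ℝ) + 2 - (a : ℕ) := by linarith
    rw [hs']
    ring
  · rw [show (a : ℕ) = Q by omega, show (b : ℕ) = Q by omega]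
    ring

/-- `pc` as a complex vector of two particles. -/
def pcVec (Q : ℕ) (C : CI Q) (σ : Fin 2 → Fin (Q + 1)) : ℂ := ((pc Q C (σ 0) (σ 1) : ℝ) : ℂ)

lemma casimir_pcVec (C : CI Q) :
    casimir Q *ᵥ pcVec Q C = ((Q : ℂ) * ((Q : ℂ) - 1)) • pcVec Q C := by
  funext σ
  have hσ : σ = ![σ 0, σ 1] := by funext i; fin_cases i <;> rfl
  rw [hσ, casimir_mulVec, Pi.smul_apply, smul_eq_mul]
  have hcoef : ∀ k l : ℕ, coef (pcVec Q C) k l =
      if k ≤ Q ∧ l ≤ Q ∧ k + l = (C : ℕ) + 1 then ((((l : ℝ) - k) / pcNorm Q C : ℝ) : ℂ) else 0 := by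
    intro k l
    by_cases hr : k ≤ Q ∧ l ≤ Q
    · rw [coef, dif_pos hr]
      simp only [pcVec, Matrix.cons_val_zero, Matrix.cons_val_one, pc_eq, hr.1, hr.2, true_and]
      split_ifs
      · rw [← Complex.ofReal_div]
        congr 1
        rw [div_div, mul_comm (pcNorm Q C), ← div_div,
          mul_div_assoc, div_self (mul_pos (wt_pos hr.1) (wt_pos hr.2)).ne', mul_one]
      · simp
    · rw [coef, dif_neg hr, if_neg (fun h => hr ⟨h.1, h.2.1⟩)]
  simp only [pcVec, Matrix.cons_val_zero, Matrix.cons_val_one]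
  generalize hk : σ 0 = a
  generalize hl : σ 1 = b
  have ha : (a : ℕ) ≤ Q := by omega
  have hb : (b : ℕ) ≤ Q := by omega
  rw [pc_eq]
  by_cases hab : (a : ℕ) + b = (C : ℕ) + 1
  swap
  · rw [if_neg hab, Complex.ofReal_zero, mul_zero, cop, hcoef, hcoef, hcoef]
    rw [if_neg (fun h => hab h.2.2)]
    rcases Nat.eq_zero_or_pos (b : ℕ) with hb0 | hb0 <;>
      rcases Nat.eq_zero_or_pos (a : ℕ) with ha0 | ha0
    all_goals simp only [ha0, hb0, Nat.cast_zero, mul_zero, zero_mul, Complex.ofReal_zero, add_zero]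
    all_goals first
      | simp; done
      | rw [if_neg (fun h => hab (by omega))]; simp; done
      | rw [if_neg (fun h => hab (by omega)), if_neg (fun h => hab (by omega))]; simp
  · rw [if_pos hab, cop, hcoef, hcoef, hcoef, if_pos ⟨ha, hb, hab⟩]
    have t1 : ((((Q : ℝ) - (a : ℕ)) * (b : ℕ) : ℝ) : ℂ) *
        (if (a : ℕ) + 1 ≤ Q ∧ (b : ℕ) - 1 ≤ Q ∧ (a : ℕ) + 1 + ((b : ℕ) - 1) = (C : ℕ) + 1 then
          ((((((b : ℕ) - 1 : ℕ) : ℝ) - (((a : ℕ) + 1 : ℕ) : ℝ)) / pcNorm Q C : ℝ) : ℂ) else 0) =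
        ((((Q : ℝ) - (a : ℕ)) * (b : ℕ) * ((((b : ℕ) : ℝ) - 1) - ((a : ℕ) + 1)) / pcNorm Q C : ℝ) : ℂ) := by
      by_cases h : (a : ℕ) < Q ∧ 0 < (b : ℕ)
      · rw [if_pos ⟨h.1, by omega, by omega⟩, ← Complex.ofReal_mul]
        congr 1
        push_cast [Nat.cast_sub (show 1 ≤ (b : ℕ) by omega)]
        ring
      · rcases not_and_or.1 h with h' | h'
        · rw [show (a : ℕ) = Q by omega]; simp
        · rw [show (b : ℕ) = 0 by omega]; simp
    have t2 : ((((a : ℕ) : ℝ) * ((Q : ℝ) - (b : ℕ)) : ℝ) : ℂ) *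
        (if (a : ℕ) - 1 ≤ Q ∧ (b : ℕ) + 1 ≤ Q ∧ (a : ℕ) - 1 + ((b : ℕ) + 1) = (C : ℕ) + 1 then
          (((((((b : ℕ) + 1 : ℕ)) : ℝ) - (((a : ℕ) - 1 : ℕ) : ℝ)) / pcNorm Q C : ℝ) : ℂ) else 0) =
        ((((a : ℕ) : ℝ) * ((Q : ℝ) - (b : ℕ)) * ((((b : ℕ) : ℝ) + 1) - ((a : ℕ) - 1)) / pcNorm Q C : ℝ) : ℂ) := by
      by_cases h : (b : ℕ) < Q ∧ 0 < (a : ℕ)
      · rw [if_pos ⟨by omega, h.1, by omega⟩, ← Complex.ofReal_mul]
        congr 1
        push_cast [Nat.cast_sub (show 1 ≤ (a : ℕ) by omega)]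
        ring
      · rcases not_and_or.1 h with h' | h'
        · rw [show (b : ℕ) = Q by omega]; simp
        · rw [show (a : ℕ) = 0 by omega]; simp
    rw [t1, t2]
    push_cast
    ring

lemma sum_fin_two {α M : Type} [Fintype α] [AddCommMonoid M] (F : (Fin 2 → α) → M) :
    ∑ τ : Fin 2 → α, F τ = ∑ a, ∑ b, F ![a, b] := by
  rw [← (finTwoArrowEquiv α).symm.sum_comp, Fintype.sum_prod_type]
  rfl

/-- The pair projection has the entries `Pr`. -/
theorem pairProj_entry (hQ : 2 ≤ Q) (σ τ : Fin 2 → Fin (Q + 1)) :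
    pairProj Q σ τ = ((Pr Q (σ 0) (σ 1) (τ 0) (τ 1) : ℝ) : ℂ) := by
  let R : Matrix (Fin 2 → Fin (Q + 1)) (Fin 2 → Fin (Q + 1)) ℂ :=
    fun σ τ => ∑ C : CI Q, pcVec Q C σ * pcVec Q C τ
  have horth : ∀ C C' : CI Q, ∑ τ, pcVec Q C τ * pcVec Q C' τ = if C = C' then 1 else 0 := by
    intro C C'
    simp only [pcVec, sum_fin_two, Matrix.cons_val_zero, Matrix.cons_val_one,
      ← Complex.ofReal_mul, ← Complex.ofReal_sum, pc_orth (by omega) C C']
    split_ifs <;> simp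
  have hR : ∀ v, R *ᵥ v = ∑ C : CI Q, (∑ τ, pcVec Q C τ * v τ) • pcVec Q C := by
    intro v
    funext σ
    simp only [R, mulVec, dotProduct, Finset.sum_mul, Finset.sum_apply, Pi.smul_apply, smul_eq_mul]
    rw [Finset.sum_comm]
    exact Finset.sum_congr rfl fun C _ => Finset.sum_congr rfl fun τ _ => by ring
  have hPR : pairProj Q * R = R := Matrix.ext_of_mulVec_single fun i => by
    rw [← mulVec_mulVec, hR, mulVec_sum]
    exact Finset.sum_congr rfl fun C _ => by rw [mulVec_smul, proj_fix (casimir_pcVec C)]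
  let b : CI Q → topSpace Q := fun C => ⟨WithLp.toLp 2 (pcVec Q C), mem_topSpace.2 (casimir_pcVec C)⟩
  have hli : LinearIndependent ℂ b := by
    refine Fintype.linearIndependent_iff.2 fun g hg C => ?_
    have h0 : ∑ C', g C' • pcVec Q C' = 0 := by
      have h1 := congrArg (fun x : topSpace Q => x.1.ofLp) hg
      simpa [b] using h1
    have h2 := congrArg (fun v => ∑ τ, pcVec Q C τ * v τ) h0
    simp only [Finset.sum_apply, Pi.smul_apply, smul_eq_mul, Pi.zero_apply, mul_zero,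
      Finset.sum_const_zero, Finset.mul_sum] at h2
    rw [Finset.sum_comm] at h2
    simp only [mul_left_comm, ← Finset.mul_sum, horth] at h2
    simpa using h2
  have hspan : Submodule.span ℂ (Set.range b) = ⊤ := by
    refine Submodule.eq_top_of_finrank_eq (le_antisymm (Submodule.finrank_le _) ?_)
    rw [finrank_span_eq_card hli]
    have := finrank_topSpace hQ
    simp only [Fintype.card_fin]
    omega
  have hfix : ∀ v, casimir Q *ᵥ v = ((Q : ℂ) * ((Q : ℂ) - 1)) • v → R *ᵥ v = v := by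
    intro v hv
    obtain ⟨g, hg⟩ := (Submodule.mem_span_range_iff_exists_fun ℂ).1
      (hspan.symm ▸ Submodule.mem_top : (⟨WithLp.toLp 2 v, mem_topSpace.2 hv⟩ : topSpace Q) ∈ _)
    have hv' : v = ∑ C, g C • pcVec Q C := by
      have h1 := congrArg (fun x : topSpace Q => x.1.ofLp) hg
      simpa [b] using h1.symm
    rw [hv', mulVec_sum]
    refine Finset.sum_congr rfl fun C _ => ?_
    rw [mulVec_smul, hR]
    congr 1
    rw [Finset.sum_eq_single C]
    · simp [horth]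
    · intro C' _ h; simp [horth, h]
    · simp
  have hRP : R * pairProj Q = pairProj Q := Matrix.ext_of_mulVec_single fun i => by
    rw [← mulVec_mulVec]; exact hfix _ (proj_mem _)
  have hRs : R.conjTranspose = R := by
    ext i j
    show star (∑ C : CI Q, pcVec Q C j * pcVec Q C i) = ∑ C : CI Q, pcVec Q C i * pcVec Q C j
    simp only [pcVec, Complex.star_def, map_sum, map_mul, Complex.conj_ofReal]
    exact Finset.sum_congr rfl fun C _ => mul_comm _ _
  have h2 := congrArg conjTranspose hRP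
  rw [conjTranspose_mul, hRs, isHermitian_pairProj.eq] at h2
  rw [← h2, hPR]
  simp only [R, pcVec, Pr, Complex.ofReal_sum, Complex.ofReal_mul]

end

end Vale.Agent.P359.Gap
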