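import Vale.Agent.P359.Gap.Targets
import Vale.Agent.P359.Gap.PairBasis
import Mathlib.Analysis.InnerProductSpace.Spectrum

/-!
# P359 gap: reduction of the gap to the quadratic form of one pair

With `χ` the component of the first two particles in the top pair basis, the energy is a multiple
of `sqSum χ` and the squared length of `H u` is the same multiple of `sqSum χ + Wform χ`.
So a lower bound on `Wform` bounds every nonzero eigenvalue on antisymmetric states from below.
-/

namespace Vale.Agent.P359.Gap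

open Matrix Finset

noncomputable section

variable {Q N n : ℕ}

/-- Real antisymmetric states. -/
def AntiR (u : (Fin N → UI Q) → ℝ) : Prop :=
  ∀ (e : Equiv.Perm (Fin N)) σ, u (σ ∘ e) = ((Equiv.Perm.sign e : ℤ) : ℝ) * u σ

/-- One pair projection on real states. -/
def pairR (p q : Fin N) (u : (Fin N → UI Q) → ℝ) (σ : Fin N → UI Q) : ℝ :=
  ∑ c, ∑ d, Pr Q (σ p) (σ q) c d * u (Function.update (Function.update σ p c) q d)

/-- The Hamiltonian on real states. -/
def hamR (u : (Fin N → UI Q) → ℝ) (σ : Fin N → UI Q) : ℝ :=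
  ∑ p, ∑ q, if p < q then pairR p q u σ else 0

/-- The component of the first pair. -/
def chiOf (u : (Fin (n + 2) → UI Q) → ℝ) : St Q n :=
  fun C x => ∑ a, ∑ b, pc Q C a b * u (Fin.cons a (Fin.cons b x))

/-- The inner product of real states. -/
def fdot (u f : (Fin N → UI Q) → ℝ) : ℝ := ∑ σ, u σ * f σ

lemma Pr_swap (a b c d : UI Q) : Pr Q b a d c = Pr Q a b c d := by
  refine Finset.sum_congr rfl fun C _ => ?_
  rw [pc_swap C a b, pc_swap C c d]
  ring

lemma pairR_comm {p q : Fin N} (h : p ≠ q) (u : (Fin N → UI Q) → ℝ) :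
    pairR q p u = pairR p q u := by
  funext σ
  rw [pairR, pairR, Finset.sum_comm]
  refine Finset.sum_congr rfl fun c _ => Finset.sum_congr rfl fun d _ => ?_
  rw [Pr_swap, Function.update_comm h.symm]

lemma pairR_perm {u : (Fin N → UI Q) → ℝ} (hu : AntiR u) (p q : Fin N)
    (e : Equiv.Perm (Fin N)) (σ : Fin N → UI Q) :
    pairR p q u (σ ∘ e) = ((Equiv.Perm.sign e : ℤ) : ℝ) * pairR (e p) (e q) u σ := by
  simp only [pairR, Finset.mul_sum, update_comp_perm, hu e, Function.comp_apply]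
  exact Finset.sum_congr rfl fun c _ => Finset.sum_congr rfl fun d _ => by ring

lemma sign_sq (e : Equiv.Perm (Fin N)) :
    ((Equiv.Perm.sign e : ℤ) : ℝ) * ((Equiv.Perm.sign e : ℤ) : ℝ) = 1 := by
  rcases Int.units_eq_one_or (Equiv.Perm.sign e) with h | h <;> simp [h]

/-- Every pair gives the same inner product. -/
lemma fdot_pair {u f : (Fin (n + 2) → UI Q) → ℝ} (hu : AntiR u) (hf : AntiR f)
    {p q : Fin (n + 2)} (hpq : p ≠ q) : fdot (pairR p q u) f = fdot (pairR 0 1 u) f := by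
  set r := Equiv.swap 0 p q with hr
  have hr0 : r ≠ 0 := fun h => hpq (by
    have := congrArg (Equiv.swap 0 p) h
    rw [hr, Equiv.swap_apply_self, Equiv.swap_apply_left] at this
    exact this.symm)
  set e : Equiv.Perm (Fin (n + 2)) := Equiv.swap 0 p * Equiv.swap 1 r with he
  have h0 : e 0 = p := by
    rw [he, Equiv.Perm.mul_apply, Equiv.swap_apply_of_ne_of_ne (by simp) (Ne.symm hr0),
      Equiv.swap_apply_left]
  have h1 : e 1 = q := by
    rw [he, Equiv.Perm.mul_apply, Equiv.swap_apply_left, hr, Equiv.swap_apply_self]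
  have key : ∀ σ : Fin (n + 2) → UI Q,
      pairR 0 1 u (σ ∘ e) * f (σ ∘ e) = pairR p q u σ * f σ := by
    intro σ
    rw [pairR_perm hu, hf, h0, h1, mul_mul_mul_comm, sign_sq, one_mul]
  rw [fdot, fdot, ← Equiv.sum_comp (Equiv.arrowCongr e.symm (Equiv.refl (UI Q)))
    fun σ => pairR 0 1 u σ * f σ]
  exact Finset.sum_congr rfl fun σ _ => (key σ).symm

lemma two_hamR (u : (Fin N → UI Q) → ℝ) (σ : Fin N → UI Q) :
    2 * hamR u σ = ∑ p, ∑ q, if p ≠ q then pairR p q u σ else 0 := by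
  have h : hamR u σ = ∑ p, ∑ q, if q < p then pairR p q u σ else 0 := by
    rw [hamR, Finset.sum_comm]
    refine Finset.sum_congr rfl fun p _ => Finset.sum_congr rfl fun q _ => ?_
    split_ifs with h
    · rw [pairR_comm h.ne u]
    · rfl
  rw [two_mul]
  nth_rewrite 2 [h]
  simp only [hamR, ← Finset.sum_add_distrib]
  refine Finset.sum_congr rfl fun p _ => Finset.sum_congr rfl fun q _ => ?_
  rcases lt_trichotomy p q with h' | h' | h'
  · simp [h', h'.ne, h'.not_gt]
  · simp [h']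
  · simp [h', h'.ne', h'.not_gt]

lemma hamR_anti {u : (Fin N → UI Q) → ℝ} (hu : AntiR u) : AntiR (hamR u) := by
  intro e σ
  have h : 2 * hamR u (σ ∘ e) = 2 * (((Equiv.Perm.sign e : ℤ) : ℝ) * hamR u σ) := by
    rw [mul_left_comm, two_hamR, two_hamR, Finset.mul_sum, ← Equiv.sum_comp e
      (fun p => ((Equiv.Perm.sign e : ℤ) : ℝ) * ∑ q, if p ≠ q then pairR p q u σ else 0)]
    refine Finset.sum_congr rfl fun p _ => ?_
    rw [← Equiv.sum_comp e (fun q => if e p ≠ q then pairR (e p) q u σ else 0), Finset.mul_sum]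
    refine Finset.sum_congr rfl fun q _ => ?_
    simp only [pairR_perm hu p q e σ, e.injective.ne_iff, mul_ite, mul_zero]
  linarith

/-- The number of pairs. -/
def pairCard (N : ℕ) : ℝ := ∑ p : Fin N, ∑ q : Fin N, if p < q then 1 else 0

lemma pairCard_nonneg (N : ℕ) : 0 ≤ pairCard N :=
  Finset.sum_nonneg fun p _ => Finset.sum_nonneg fun q _ => by split_ifs <;> norm_num

lemma fdot_hamR {u f : (Fin (n + 2) → UI Q) → ℝ} (hu : AntiR u) (hf : AntiR f) :
    fdot (hamR u) f = pairCard (n + 2) * fdot (pairR 0 1 u) f := by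
  simp only [fdot, hamR, pairCard, Finset.sum_mul]
  rw [Finset.sum_comm]
  refine Finset.sum_congr rfl fun p _ => ?_
  rw [Finset.sum_comm]
  refine Finset.sum_congr rfl fun q _ => ?_
  split_ifs with h
  · simpa [fdot] using fdot_pair hu hf h.ne
  · simp

lemma sum_cons {α : Type} [Fintype α] {m : ℕ} (F : (Fin (m + 1) → α) → ℝ) :
    ∑ σ, F σ = ∑ a, ∑ x : Fin m → α, F (Fin.cons a x) := by
  rw [← Fintype.sum_prod_type']
  exact (Equiv.sum_comp (Fin.consEquiv fun _ : Fin (m + 1) => α) F).symm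

lemma sum_cons_two {α : Type} [Fintype α] {m : ℕ} (F : (Fin (m + 2) → α) → ℝ) :
    ∑ σ, F σ = ∑ a, ∑ b, ∑ x : Fin m → α, F (Fin.cons a (Fin.cons b x)) := by
  rw [sum_cons]
  exact Finset.sum_congr rfl fun a _ => sum_cons _

lemma cons_update_one {α : Type} {m : ℕ} (a b c : α) (x : Fin m → α) :
    Function.update (Fin.cons a (Fin.cons b x) : Fin (m + 2) → α) 1 c =
      Fin.cons a (Fin.cons c x) := by
  rw [← Fin.succ_zero_eq_one, ← Fin.cons_update, Fin.update_cons_zero]

lemma cons_update_two {α : Type} {m : ℕ} (a b c : α) (x : Fin m → α) (k : Fin m) :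
    Function.update (Fin.cons a (Fin.cons b x) : Fin (m + 2) → α) k.succ.succ c =
      Fin.cons a (Fin.cons b (Function.update x k c)) := by
  rw [← Fin.cons_update, ← Fin.cons_update]

lemma pair01_cons (u : (Fin (n + 2) → UI Q) → ℝ) (a b : UI Q) (x : Fin n → UI Q) :
    pairR 0 1 u (Fin.cons a (Fin.cons b x)) = ∑ C, pc Q C a b * chiOf u C x := by
  simp only [pairR, Fin.cons_zero, Fin.cons_one, Fin.update_cons_zero, cons_update_one, Pr,
    chiOf, Finset.mul_sum, Finset.sum_mul]
  rw [Finset.sum_comm (γ := CI Q)]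
  refine Finset.sum_congr rfl fun c _ => ?_
  rw [Finset.sum_comm (γ := CI Q)]
  exact Finset.sum_congr rfl fun d _ => Finset.sum_congr rfl fun C _ => by ring

lemma fdot01 (u f : (Fin (n + 2) → UI Q) → ℝ) :
    fdot (pairR 0 1 u) f = ∑ C, ∑ x, chiOf u C x * chiOf f C x := by
  rw [fdot, sum_cons_two]
  simp only [pair01_cons, Finset.sum_mul]
  have h : ∀ C x, chiOf u C x * chiOf f C x =
      ∑ a, ∑ b, pc Q C a b * chiOf u C x * f (Fin.cons a (Fin.cons b x)) := by
    intro C x
    rw [show chiOf f C x = ∑ a, ∑ b, pc Q C a b * f (Fin.cons a (Fin.cons b x)) from rfl]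
    simp only [Finset.mul_sum]
    refine Finset.sum_congr rfl fun a _ => Finset.sum_congr rfl fun b _ => ?_
    ring
  simp only [h]
  conv_rhs => rw [Finset.sum_comm]; enter [2, x]; rw [Finset.sum_comm]
  conv_rhs => rw [Finset.sum_comm]
  refine Finset.sum_congr rfl fun a _ => ?_
  conv_rhs => enter [2, x]; rw [Finset.sum_comm]
  rw [Finset.sum_comm]

lemma swap_zero_one {α : Type} {m : ℕ} (a b : α) (x : Fin m → α) :
    (Fin.cons a (Fin.cons b x) : Fin (m + 2) → α) ∘ Equiv.swap (0 : Fin (m + 2)) 1 =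
      Fin.cons b (Fin.cons a x) := by
  funext i
  refine Fin.cases ?_ (fun j => ?_) i
  · simp
  refine Fin.cases ?_ (fun k => ?_) j
  · simp
  · simp only [Function.comp_apply]
    rw [Equiv.swap_apply_of_ne_of_ne (Fin.succ_ne_zero _)
      (fun h => Fin.succ_ne_zero k (Fin.succ_inj.1 (h.trans Fin.succ_zero_eq_one.symm)))]
    simp

lemma swap_one_two {α : Type} {m : ℕ} (a b d : α) (x : Fin m → α) (k : Fin m) :
    (Fin.cons a (Fin.cons d (Function.update x k b)) : Fin (m + 2) → α) ∘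
      Equiv.swap (1 : Fin (m + 2)) k.succ.succ = Fin.cons a (Fin.cons b (Function.update x k d)) := by
  have hk : (k.succ.succ : Fin (m + 2)) ≠ 1 :=
    fun h => Fin.succ_ne_zero k (Fin.succ_inj.1 (h.trans Fin.succ_zero_eq_one.symm))
  funext i
  simp only [Function.comp_apply]
  refine Fin.cases ?_ (fun j => ?_) i
  · rw [Equiv.swap_apply_of_ne_of_ne (by simp) (Fin.succ_ne_zero _).symm]; simp
  refine Fin.cases ?_ (fun l => ?_) j
  · rw [Fin.succ_zero_eq_one, Equiv.swap_apply_left]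
    conv_rhs => rw [← Fin.succ_zero_eq_one]
    simp only [Fin.cons_succ, Fin.cons_zero, Function.update_self]
  · by_cases h : l = k
    · subst h; rw [Equiv.swap_apply_right]
      conv_lhs => rw [← Fin.succ_zero_eq_one]
      simp only [Fin.cons_succ, Fin.cons_zero, Function.update_self]
    · rw [Equiv.swap_apply_of_ne_of_ne
        (fun h' => Fin.succ_ne_zero l (Fin.succ_inj.1 (h'.trans Fin.succ_zero_eq_one.symm)))
        (fun h' => h (Fin.succ_inj.1 (Fin.succ_inj.1 h')))]
      simp only [Fin.cons_succ, Function.update_of_ne h]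

lemma anti_swap {u : (Fin N → UI Q) → ℝ} (hu : AntiR u) {p q : Fin N} (h : p ≠ q)
    (σ : Fin N → UI Q) : u (σ ∘ Equiv.swap p q) = -u σ := by
  rw [hu, Equiv.Perm.sign_swap h]; simp

lemma one_ne_succ_succ {m : ℕ} (k : Fin m) : (1 : Fin (m + 2)) ≠ k.succ.succ :=
  fun h => Fin.succ_ne_zero k (Fin.succ_inj.1 (h.symm.trans Fin.succ_zero_eq_one.symm))

lemma pair02_cons {u : (Fin (n + 2) → UI Q) → ℝ} (hu : AntiR u) (a b : UI Q)
    (x : Fin n → UI Q) (k : Fin n) :
    pairR 0 k.succ.succ u (Fin.cons a (Fin.cons b x)) =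
      -∑ C', pc Q C' a (x k) * chiOf u C' (Function.update x k b) := by
  have hswap : ∀ c d, u (Fin.cons c (Fin.cons b (Function.update x k d))) =
      -u (Fin.cons c (Fin.cons d (Function.update x k b))) := fun c d => by
    rw [← swap_one_two c b d x k, anti_swap hu (one_ne_succ_succ k)]
  simp only [pairR, Fin.cons_zero, Fin.cons_succ, Fin.update_cons_zero, cons_update_two, hswap,
    Pr, chiOf, Finset.mul_sum, Finset.sum_mul, mul_neg, Finset.sum_neg_distrib]
  rw [Finset.sum_comm (γ := CI Q)]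
  refine congrArg _ (Finset.sum_congr rfl fun c _ => ?_)
  rw [Finset.sum_comm (γ := CI Q)]
  exact Finset.sum_congr rfl fun d _ => Finset.sum_congr rfl fun C _ => by ring

lemma pair12_cons {u : (Fin (n + 2) → UI Q) → ℝ} (hu : AntiR u) (a b : UI Q)
    (x : Fin n → UI Q) (k : Fin n) :
    pairR 1 k.succ.succ u (Fin.cons a (Fin.cons b x)) =
      -pairR 0 k.succ.succ u (Fin.cons b (Fin.cons a x)) := by
  rw [← swap_zero_one b a x, pairR_perm hu, Equiv.Perm.sign_swap (by simp : (0 : Fin (n + 2)) ≠ 1),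
    Equiv.swap_apply_right, Equiv.swap_apply_of_ne_of_ne (Fin.succ_ne_zero _)
      (one_ne_succ_succ k).symm]
  simp

lemma pair22_cons (u : (Fin (n + 2) → UI Q) → ℝ) (a b : UI Q) (x : Fin n → UI Q) (k l : Fin n) :
    pairR k.succ.succ l.succ.succ u (Fin.cons a (Fin.cons b x)) =
      ∑ c, ∑ d, Pr Q (x k) (x l) c d *
        u (Fin.cons a (Fin.cons b (Function.update (Function.update x k c) l d))) := by
  simp only [pairR, Fin.cons_succ, cons_update_two]

lemma hamR_split (u : (Fin (n + 2) → UI Q) → ℝ) (σ : Fin (n + 2) → UI Q) :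
    hamR u σ = pairR 0 1 u σ + (∑ k : Fin n, pairR 0 k.succ.succ u σ) +
      (∑ k : Fin n, pairR 1 k.succ.succ u σ) +
      ∑ k : Fin n, ∑ l : Fin n, if k < l then pairR k.succ.succ l.succ.succ u σ else 0 := by
  have hk : ∀ k : Fin n, ¬ (k.succ.succ : Fin (n + 2)) < 1 := fun k => by simp [Fin.lt_def]
  simp only [hamR, Fin.sum_univ_succ (n := n + 1), Fin.sum_univ_succ (n := n),
    Fin.succ_lt_succ_iff, Fin.succ_pos, Fin.not_lt_zero, lt_irrefl, if_true, if_false,
    Finset.sum_add_distrib, Finset.sum_const_zero, Fin.succ_zero_eq_one, add_zero, zero_add, hk, Fin.zero_lt_one]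
  ring

/-- The pair component of `H u`. -/
lemma chiOf_hamR (hQ : 0 < Q) {u : (Fin (n + 2) → UI Q) → ℝ} (hu : AntiR u) (C : CI Q)
    (x : Fin n → UI Q) : chiOf (hamR u) C x = chiOf u C x +
      (∑ k : Fin n, ∑ j : CI Q × UI Q,
        Kmat Q (C, x k) j * chiOf u j.1 (Function.update x k j.2)) +
      ∑ k : Fin n, ∑ l : Fin n, if k < l then ∑ c, ∑ d, Pr Q (x k) (x l) c d *
        chiOf u C (Function.update (Function.update x k c) l d) else 0 := by
  have hA : ∑ a, ∑ b, pc Q C a b * pairR 0 1 u (Fin.cons a (Fin.cons b x)) = chiOf u C x := by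
    simp only [pair01_cons, Finset.mul_sum]
    conv_lhs => enter [2, a]; rw [Finset.sum_comm]
    rw [Finset.sum_comm]
    simp only [← mul_assoc, ← Finset.sum_mul, pc_orth hQ]
    simp
  have hB : ∀ k : Fin n, ∑ a, ∑ b, pc Q C a b *
      (pairR 0 k.succ.succ u (Fin.cons a (Fin.cons b x)) +
        pairR 1 k.succ.succ u (Fin.cons a (Fin.cons b x))) =
      ∑ j : CI Q × UI Q, Kmat Q (C, x k) j * chiOf u j.1 (Function.update x k j.2) := by
    intro k
    have e1 : ∑ a, ∑ b, pc Q C a b * pairR 1 k.succ.succ u (Fin.cons a (Fin.cons b x)) =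
        ∑ a, ∑ b, pc Q C a b * pairR 0 k.succ.succ u (Fin.cons a (Fin.cons b x)) := by
      rw [Finset.sum_comm]
      refine Finset.sum_congr rfl fun a _ => Finset.sum_congr rfl fun b _ => ?_
      rw [pair12_cons hu, pc_swap C a b]; ring
    simp only [mul_add, Finset.sum_add_distrib, e1]
    simp only [pair02_cons hu, Fintype.sum_prod_type, Kmat, mul_neg, Finset.sum_neg_distrib,
      Finset.mul_sum, Finset.sum_mul, ← two_mul]
    simp only [← Finset.mul_sum]
    rw [neg_eq_neg_one_mul, ← mul_assoc]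
    simp only [Finset.mul_sum]
    conv_lhs => enter [2, a]; rw [Finset.sum_comm]
    rw [Finset.sum_comm]
    refine Finset.sum_congr rfl fun C' _ => ?_
    rw [Finset.sum_comm]
    exact Finset.sum_congr rfl fun b _ => Finset.sum_congr rfl fun a _ => by ring
  have hC : ∀ k l : Fin n, ∑ a, ∑ b, pc Q C a b *
      pairR k.succ.succ l.succ.succ u (Fin.cons a (Fin.cons b x)) =
      ∑ c, ∑ d, Pr Q (x k) (x l) c d *
        chiOf u C (Function.update (Function.update x k c) l d) := by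
    intro k l
    simp only [pair22_cons, chiOf, Finset.mul_sum]
    conv_lhs => enter [2, a]; rw [Finset.sum_comm]
    rw [Finset.sum_comm]
    refine Finset.sum_congr rfl fun c _ => ?_
    conv_lhs => enter [2, a]; rw [Finset.sum_comm]
    rw [Finset.sum_comm]
    exact Finset.sum_congr rfl fun d _ => Finset.sum_congr rfl fun a _ =>
      Finset.sum_congr rfl fun b _ => by ring
  rw [chiOf, ← hA]
  simp only [← hB, ← hC, hamR_split, mul_add, Finset.mul_sum, Finset.sum_add_distrib, mul_ite,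
    mul_zero]
  rw [add_assoc (∑ a, ∑ b, pc Q C a b * pairR 0 1 u (Fin.cons a (Fin.cons b x)))]
  congr 1
  · congr 1
    congr 1 <;>
      (conv_lhs => enter [2, a]; rw [Finset.sum_comm]) <;> rw [Finset.sum_comm]
  · conv_lhs => enter [2, a]; rw [Finset.sum_comm]
    rw [Finset.sum_comm]
    refine Finset.sum_congr rfl fun k _ => ?_
    conv_lhs => enter [2, a]; rw [Finset.sum_comm]
    rw [Finset.sum_comm]
    refine Finset.sum_congr rfl fun l _ => ?_
    split_ifs <;> simp

lemma chiOf_anti {u : (Fin (n + 2) → UI Q) → ℝ} (hu : AntiR u) : Anti (chiOf u) := by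
  intro e C x
  simp only [chiOf, Finset.mul_sum]
  refine Finset.sum_congr rfl fun a _ => Finset.sum_congr rfl fun b _ => ?_
  let e' : Equiv.Perm (Fin (n + 2)) :=
    Equiv.Perm.decomposeFin.symm (0, Equiv.Perm.decomposeFin.symm (0, e))
  have h1 : (Fin.cons a (Fin.cons b x) : Fin (n + 2) → UI Q) ∘ e' = Fin.cons a (Fin.cons b (x ∘ e)) := by
    funext i
    refine Fin.cases ?_ (fun j => ?_) i
    · simp [e']
    refine Fin.cases ?_ (fun k => ?_) j
    · simp [e']
    · simp [e']
  rw [← h1, hu e']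
  simp [e']
  ring

lemma chiOf_vanish (hQ : 0 < Q) {u : (Fin (n + 2) → UI Q) → ℝ} (hu : AntiR u) :
    Vanish (chiOf u) := by
  intro v hv k x
  let f : UI Q → UI Q → UI Q → ℝ := fun a b c => ∑ C, v (C, c) * pc Q C a b
  let U : UI Q → UI Q → UI Q → ℝ := fun a b c => u (Fin.cons a (Fin.cons b (Function.update x k c)))
  let g : UI Q → UI Q → UI Q → ℝ := fun a b c => f a b c + f b c a + f c a b
  have hgoal : ∑ i, v i * chiOf u i.1 (Function.update x k i.2) = ∑ a, ∑ b, ∑ c, f a b c * U a b c := by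
    simp only [Fintype.sum_prod_type, chiOf, f, U, Finset.mul_sum, Finset.sum_mul]
    conv_lhs => enter [2, C]; rw [Finset.sum_comm]; enter [2, a]; rw [Finset.sum_comm]
    rw [Finset.sum_comm]
    refine Finset.sum_congr rfl fun a _ => ?_
    rw [Finset.sum_comm]
    refine Finset.sum_congr rfl fun b _ => ?_
    rw [Finset.sum_comm]
    exact Finset.sum_congr rfl fun c _ => Finset.sum_congr rfl fun C _ => by ring
  have hcyc : ∀ a b c, U b c a = U a b c := by
    intro a b c
    have s1 : U b a c = -U a b c := by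
      simp only [U]; rw [← swap_zero_one a b, anti_swap hu (by simp)]
    have s2 : U b c a = -U b a c := by
      simp only [U]; rw [← swap_one_two b c a x k, anti_swap hu (one_ne_succ_succ k)]
    linarith
  have rot : ∀ F : UI Q → UI Q → UI Q → ℝ,
      ∑ a, ∑ b, ∑ c, F b c a = ∑ a, ∑ b, ∑ c, F a b c := by
    intro F
    rw [Finset.sum_comm]
    exact Finset.sum_congr rfl fun b _ => Finset.sum_comm
  have hgU : ∑ a, ∑ b, ∑ c, g a b c * U a b c = 3 * ∑ a, ∑ b, ∑ c, f a b c * U a b c := by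
    have h1 := rot fun a b c => f a b c * U a b c
    have h2 := rot fun a b c => f b c a * U b c a
    simp only [hcyc] at h1 h2
    simp only [g, add_mul, Finset.sum_add_distrib]
    linarith
  have hvv : ∑ a, ∑ b, ∑ c, f a b c * f a b c = ∑ C, ∑ c, v (C, c) * v (C, c) := by
    conv_lhs => enter [2, a]; rw [Finset.sum_comm]
    rw [Finset.sum_comm, Finset.sum_comm (γ := CI Q)]
    refine Finset.sum_congr rfl fun c _ => ?_
    simp only [f, Finset.mul_sum, Finset.sum_mul]
    conv_lhs => enter [2, a]; rw [Finset.sum_comm]; enter [2, C]; rw [Finset.sum_comm]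
    rw [Finset.sum_comm]
    refine Finset.sum_congr rfl fun C _ => ?_
    rw [Finset.sum_comm]
    have e : ∀ C' a b, v (C', c) * pc Q C' a b * (v (C, c) * pc Q C a b) =
        (v (C', c) * v (C, c)) * (pc Q C' a b * pc Q C a b) := fun _ _ _ => by ring
    simp only [e, ← Finset.mul_sum, pc_orth hQ]
    simp
  have hvKv : 2 * ∑ a, ∑ b, ∑ c, f a b c * f b c a = v ⬝ᵥ (Kmat Q *ᵥ v) := by
    have hl : ∑ a, ∑ b, ∑ c, f a b c * f b c a =
        ∑ t : UI Q × UI Q × UI Q × CI Q × CI Q,
          v (t.2.2.2.1, t.2.2.1) * v (t.2.2.2.2, t.1) *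
            (pc Q t.2.2.2.1 t.1 t.2.1 * pc Q t.2.2.2.2 t.2.1 t.2.2.1) := by
      simp only [f, Fintype.sum_mul_sum, Fintype.sum_prod_type]
      exact Finset.sum_congr rfl fun a _ => Finset.sum_congr rfl fun b _ =>
        Finset.sum_congr rfl fun c _ => Finset.sum_congr rfl fun C _ =>
          Finset.sum_congr rfl fun C' _ => by ring
    have hr : v ⬝ᵥ (Kmat Q *ᵥ v) = ∑ t : (CI Q × UI Q) × (CI Q × UI Q) × UI Q,
        -2 * (v t.1 * v t.2.1 * (pc Q t.1.1 t.2.2 t.2.1.2 * pc Q t.2.1.1 t.2.2 t.1.2)) := by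
      rw [Fintype.sum_prod_type]
      simp only [dotProduct, mulVec, Kmat, Finset.mul_sum, Finset.sum_mul]
      refine Finset.sum_congr rfl fun x _ => ?_
      conv_rhs => rw [Fintype.sum_prod_type]
      exact Finset.sum_congr rfl fun y _ => Finset.sum_congr rfl fun z _ => by ring
    rw [hl, hr, Finset.mul_sum]
    refine Fintype.sum_equiv
      ⟨fun t => ((t.2.2.2.1, t.2.2.1), (t.2.2.2.2, t.1), t.2.1),
        fun t => (t.2.1.2, t.2.2, t.1.2, t.1.1, t.2.1.1), fun _ => rfl, fun _ => rfl⟩ _ _ fun t => ?_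
    simp only [Equiv.coe_fn_mk]
    rw [pc_swap t.2.2.2.1 t.1 t.2.1]
    ring
  have hgg : ∑ a, ∑ b, ∑ c, g a b c * g a b c = 0 := by
    have h1 := rot fun a b c => f a b c * f a b c
    have h2 := rot fun a b c => f b c a * f b c a
    have h3 := rot fun a b c => f a b c * f b c a
    have h4 := rot fun a b c => f b c a * f c a b
    have h0 : v ⬝ᵥ v + v ⬝ᵥ (Kmat Q *ᵥ v) = 0 := by rw [hv, dotProduct_neg]; ring
    have hd : v ⬝ᵥ v = ∑ C, ∑ c, v (C, c) * v (C, c) := by
      rw [dotProduct, Fintype.sum_prod_type]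
    have hexp : ∑ a, ∑ b, ∑ c, g a b c * g a b c =
        (∑ a, ∑ b, ∑ c, f a b c * f a b c) + (∑ a, ∑ b, ∑ c, f b c a * f b c a) +
        (∑ a, ∑ b, ∑ c, f c a b * f c a b) + 2 * (∑ a, ∑ b, ∑ c, f a b c * f b c a) +
        2 * (∑ a, ∑ b, ∑ c, f b c a * f c a b) + 2 * (∑ a, ∑ b, ∑ c, f c a b * f a b c) := by
      simp only [g, Finset.mul_sum, ← Finset.sum_add_distrib]
      exact Finset.sum_congr rfl fun a _ => Finset.sum_congr rfl fun b _ =>
        Finset.sum_congr rfl fun c _ => by ring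
    linarith
  have hg0 : ∀ a b c, g a b c = 0 := by
    intro a b c
    have h := (Finset.sum_eq_zero_iff_of_nonneg fun a _ => Finset.sum_nonneg fun b _ =>
      Finset.sum_nonneg fun c _ => mul_self_nonneg (g a b c)).1 hgg a (Finset.mem_univ a)
    have h' := (Finset.sum_eq_zero_iff_of_nonneg fun b _ => Finset.sum_nonneg fun c _ =>
      mul_self_nonneg (g a b c)).1 h b (Finset.mem_univ b)
    exact mul_self_eq_zero.1 ((Finset.sum_eq_zero_iff_of_nonneg fun c _ =>
      mul_self_nonneg (g a b c)).1 h' c (Finset.mem_univ c))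
  simp only [hg0, zero_mul, Finset.sum_const_zero] at hgU
  rw [hgoal]
  linarith

/-- The bound on real states. -/
lemma real_bound (hQ : 0 < Q) {c : ℝ}
    (hW : ∀ χ : St Q n, Anti χ → Vanish χ → -c * sqSum χ ≤ Wform χ)
    {u : (Fin (n + 2) → UI Q) → ℝ} (hu : AntiR u) :
    (1 - c) * fdot u (hamR u) ≤ fdot (hamR u) (hamR u) := by
  have h1 : fdot u (hamR u) = pairCard (n + 2) * sqSum (chiOf u) := by
    rw [show fdot u (hamR u) = fdot (hamR u) u from Finset.sum_congr rfl fun σ _ => mul_comm _ _,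
      fdot_hamR hu hu, fdot01]
    simp only [sqSum, pow_two]
  have h2 : fdot (hamR u) (hamR u) =
      pairCard (n + 2) * (sqSum (chiOf u) + Wform (chiOf u)) := by
    rw [fdot_hamR hu (hamR_anti hu), fdot01]
    congr 1
    simp only [chiOf_hamR hQ hu, sqSum, Wform, mul_add, Finset.sum_add_distrib, pow_two,
      Finset.mul_sum, mul_ite, mul_zero, mul_assoc]
    rw [← add_assoc]
    congr 1
    · congr 1
      conv_lhs => enter [2, C]; rw [Finset.sum_comm]
      rw [Finset.sum_comm]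
    · conv_lhs => enter [2, C]; rw [Finset.sum_comm]
      rw [Finset.sum_comm]
      refine Finset.sum_congr rfl fun k _ => ?_
      conv_lhs => enter [2, C]; rw [Finset.sum_comm]
      rw [Finset.sum_comm]
      refine Finset.sum_congr rfl fun l _ => ?_
      split_ifs <;> simp
  have h3 := hW _ (chiOf_anti hu) (chiOf_vanish hQ hu)
  rw [h1, h2, mul_left_comm]
  exact mul_le_mul_of_nonneg_left (by linarith) (pairCard_nonneg _)

/-- Real and imaginary parts of the Hamiltonian. -/
lemma part_hamiltonian (hQ : 2 ≤ Q) (L : ℂ →ₗ[ℝ] ℝ) (φ : (Fin N → UI Q) → ℂ)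
    (σ : Fin N → UI Q) :
    L ((hamiltonian N Q *ᵥ φ) σ) = hamR (fun τ => L (φ τ)) σ := by
  simp only [hamiltonian, Matrix.sum_mulVec, Finset.sum_apply, map_sum, hamR]
  refine Finset.sum_congr rfl fun p _ => Finset.sum_congr rfl fun q _ => ?_
  split_ifs with h
  · rw [pairOp_mulVec h.ne]
    simp only [mulVec, dotProduct, sum_fin_two, slice, pairProj_entry hQ,
      Matrix.cons_val_zero, Matrix.cons_val_one, map_sum, pairR]
    refine Finset.sum_congr rfl fun c _ => Finset.sum_congr rfl fun d _ => ?_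
    rw [← Complex.real_smul, map_smul, smul_eq_mul]
  · simp

lemma part_anti (L : ℂ →ₗ[ℝ] ℝ) {φ : (Fin N → UI Q) → ℂ} (hφ : Antisymm φ) :
    AntiR fun τ => L (φ τ) := by
  intro e σ
  show L (φ (σ ∘ e)) = _
  rw [hφ e, show ((Equiv.Perm.sign e : ℤ) : ℂ) = (((Equiv.Perm.sign e : ℤ) : ℝ) : ℂ) by norm_cast,
    ← Complex.real_smul, map_smul, smul_eq_mul]

lemma hamiltonian_anti (hQ : 2 ≤ Q) {φ : (Fin N → UI Q) → ℂ} (hφ : Antisymm φ) :
    Antisymm (hamiltonian N Q *ᵥ φ) := by
  intro e σ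
  have h : ∀ L : ℂ →ₗ[ℝ] ℝ, L ((hamiltonian N Q *ᵥ φ) (σ ∘ e)) =
      L (((Equiv.Perm.sign e : ℤ) : ℂ) * (hamiltonian N Q *ᵥ φ) σ) := by
    intro L
    rw [show ((Equiv.Perm.sign e : ℤ) : ℂ) = (((Equiv.Perm.sign e : ℤ) : ℝ) : ℂ) by norm_cast,
      ← Complex.real_smul, map_smul, smul_eq_mul, part_hamiltonian hQ, part_hamiltonian hQ]
    exact hamR_anti (part_anti L hφ) e σ
  exact Complex.ext (h Complex.reLm) (h Complex.imLm)

lemma hamiltonian_herm (hQ : 2 ≤ Q) : (hamiltonian N Q).IsHermitian := by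
  ext σ τ
  simp only [Matrix.conjTranspose_apply, hamiltonian, Matrix.sum_apply, star_sum]
  refine Finset.sum_congr rfl fun p _ => Finset.sum_congr rfl fun q _ => ?_
  split_ifs with h
  · have hs : (∀ i, i ≠ p → i ≠ q → τ i = σ i) ↔ (∀ i, i ≠ p → i ≠ q → σ i = τ i) :=
      ⟨fun h i a b => (h i a b).symm, fun h i a b => (h i a b).symm⟩
    simp only [pairOp, hs, pairProj_entry hQ, apply_ite star, star_zero, Complex.star_def,
      Complex.conj_ofReal]
    split_ifs
    · congr 1
      simp only [Pr, mul_comm]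
    · rfl
  · simp

lemma star_dot_self {ι : Type} [Fintype ι] (y : ι → ℂ) : star y ⬝ᵥ y = (nsq y : ℂ) := by
  rw [nsq, dotProduct, Complex.ofReal_sum]
  refine Finset.sum_congr rfl fun σ _ => ?_
  rw [Pi.star_apply, Complex.star_def, ← Complex.normSq_eq_conj_mul_self, Complex.normSq_eq_norm_sq]

lemma nsq_eq_zero {ι : Type} [Fintype ι] {y : ι → ℂ} (h : nsq y = 0) : y = 0 := by
  funext σ
  have := (Finset.sum_eq_zero_iff_of_nonneg fun τ _ => sq_nonneg ‖y τ‖).1 h σ (Finset.mem_univ σ)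
  simpa using this

/-- Reduction of the gap to the pair form. -/
theorem reduce : ReduceTarget := by
  intro n c _ hW hker
  set Q := 3 * (n + 1) with hQdef
  have hQ : 2 ≤ Q := by omega
  have hQ' : Q = 3 * ((n + 2) - 1) := by omega
  intro φ hφ
  set ψ := laughlin (n + 2) Q with hψdef
  set H := hamiltonian (n + 2) Q with hHdef
  have hψ : Antisymm ψ := laughlin_antisymm
  have hHψ : H *ᵥ ψ = 0 := hamiltonian_laughlin hQ'
  have hherm : H.IsHermitian := hamiltonian_herm hQ
  let V : Submodule ℂ (EuclideanSpace ℂ (Fin (n + 2) → UI Q)) :=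
    { carrier := {x | Antisymm x.ofLp ∧ star ψ ⬝ᵥ x.ofLp = 0}
      add_mem' := fun {x y} hx hy => ⟨fun e σ => by
          simp [hx.1 e σ, hy.1 e σ, mul_add],
        by simp [WithLp.ofLp_add, hx.2, hy.2]⟩
      zero_mem' := ⟨fun e σ => by simp, by simp⟩
      smul_mem' := fun r x hx => ⟨fun e σ => by
          simp [hx.1 e σ]; ring,
        by simp [WithLp.ofLp_smul, hx.2]⟩ }
  let T := Matrix.toEuclideanLin H
  have hT : T.IsSymmetric := Matrix.isHermitian_iff_isSymmetric.1 hherm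
  have hTV : ∀ x ∈ V, T x ∈ V := by
    intro x hx
    refine ⟨?_, ?_⟩
    · simpa [T, Matrix.toEuclideanLin_apply] using hamiltonian_anti hQ hx.1
    · have : star ψ ᵥ* H = 0 := by
        rw [← hherm.eq, ← star_mulVec, hHψ, star_zero]
      simp [T, Matrix.toEuclideanLin_apply, dotProduct_mulVec, this]
  have hTr := hT.restrict_invariant hTV
  let b := hTr.eigenvectorBasis rfl
  let ev := hTr.eigenvalues rfl
  have hen : ∀ χ : (Fin (n + 2) → UI Q) → ℂ, (star χ ⬝ᵥ (H *ᵥ χ)).re =
      fdot (fun τ => (χ τ).re) (hamR fun τ => (χ τ).re) +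
      fdot (fun τ => (χ τ).im) (hamR fun τ => (χ τ).im) := by
    intro χ
    rw [fdot, fdot, ← Finset.sum_add_distrib, dotProduct, Complex.re_sum]
    refine Finset.sum_congr rfl fun σ _ => ?_
    have h1 := part_hamiltonian hQ Complex.reLm χ σ
    have h2 := part_hamiltonian hQ Complex.imLm χ σ
    simp only [Complex.reLm_coe, Complex.imLm_coe] at h1 h2
    simp [Complex.mul_re, H, h1, h2]
  have hsq : ∀ χ : (Fin (n + 2) → UI Q) → ℂ, nsq (H *ᵥ χ) =
      fdot (hamR fun τ => (χ τ).re) (hamR fun τ => (χ τ).re) +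
      fdot (hamR fun τ => (χ τ).im) (hamR fun τ => (χ τ).im) := by
    intro χ
    rw [nsq, fdot, fdot, ← Finset.sum_add_distrib]
    refine Finset.sum_congr rfl fun σ _ => ?_
    have h1 := part_hamiltonian hQ Complex.reLm χ σ
    have h2 := part_hamiltonian hQ Complex.imLm χ σ
    simp only [Complex.reLm_coe, Complex.imLm_coe] at h1 h2
    rw [← Complex.normSq_eq_norm_sq, Complex.normSq_apply, h1, h2]
  have hev : ∀ i, 1 - c ≤ ev i := by
    intro i
    set χ : (Fin (n + 2) → UI Q) → ℂ := ((b i : V) : EuclideanSpace ℂ _).ofLp with hχdef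
    have hbi : Antisymm χ ∧ star ψ ⬝ᵥ χ = 0 := (b i).2
    have heig : H *ᵥ χ = (ev i : ℂ) • χ := by
      have := congrArg (fun x : V => (x : EuclideanSpace ℂ (Fin (n + 2) → UI Q)).ofLp)
        (hTr.apply_eigenvectorBasis rfl i)
      simpa [T, Matrix.toEuclideanLin_apply, LinearMap.restrict_apply] using this
    have hn : nsq χ = 1 := by
      have h1 : ‖(b i : V)‖ = 1 := b.orthonormal.1 i
      have h2 : ‖((b i : V) : EuclideanSpace ℂ (Fin (n + 2) → UI Q))‖ = 1 := h1
      have h3 := EuclideanSpace.norm_sq_eq ((b i : V) : EuclideanSpace ℂ (Fin (n + 2) → UI Q))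
      rw [h2, one_pow] at h3
      exact h3.symm
    have h1 : (star χ ⬝ᵥ (H *ᵥ χ)).re = ev i := by
      rw [heig, dotProduct_smul, smul_eq_mul, Complex.re_ofReal_mul]
      rw [star_dot_self, Complex.ofReal_re, hn, mul_one]
    have h2 : nsq (H *ᵥ χ) = ev i ^ 2 := by
      rw [heig, nsq]
      simp only [Pi.smul_apply, smul_eq_mul, norm_mul, mul_pow, Complex.norm_real,
        Real.norm_eq_abs, sq_abs, ← Finset.mul_sum]
      rw [← nsq, hn, mul_one]
    have h3 : (1 - c) * ev i ≤ ev i ^ 2 := by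
      have h5 := add_le_add (real_bound (by omega) hW (part_anti Complex.reLm hbi.1))
        (real_bound (by omega) hW (part_anti Complex.imLm hbi.1))
      simp only [Complex.reLm_coe, Complex.imLm_coe] at h5
      rwa [← mul_add, ← hen, ← hsq, h1, h2] at h5
    have h4 : 0 < ev i := by
      refine lt_of_le_of_ne (h1 ▸ energy_nonneg χ) fun h0 => ?_
      obtain ⟨a, ha⟩ := hker χ hbi.1 (by
        show H *ᵥ χ = 0
        rw [heig, ← h0]; simp)
      have hz := hbi.2
      rw [ha, dotProduct_smul, smul_eq_mul, mul_eq_zero, star_dot_self, Complex.ofReal_eq_zero] at hz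
      rcases hz with rfl | hz
      · rw [ha] at hn; simp [nsq] at hn
      · exact laughlin_ne_zero (N := n + 2) (Q := Q) hQ'.ge (nsq_eq_zero hz)
    nlinarith
  set r : ℝ := nsq ψ with hrdef
  have hψψ : star ψ ⬝ᵥ ψ = (r : ℂ) := star_dot_self ψ
  have hr : r ≠ 0 := fun h => laughlin_ne_zero (N := n + 2) (Q := Q) hQ'.ge (nsq_eq_zero h)
  set a := (star ψ ⬝ᵥ φ) / (r : ℂ) with hadef
  set x : (Fin (n + 2) → UI Q) → ℂ := φ - a • ψ with hxdef
  have hxψ : star ψ ⬝ᵥ x = 0 := by
    rw [hxdef, dotProduct_sub, dotProduct_smul, hψψ, smul_eq_mul, hadef,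
      div_mul_cancel₀ _ (Complex.ofReal_ne_zero.2 hr), sub_self]
  have hxV : WithLp.toLp 2 x ∈ V := ⟨fun e σ => by
    simp only [hxdef, Pi.sub_apply, Pi.smul_apply, smul_eq_mul, hψ e σ]
    rw [hφ e σ]
    ring, hxψ⟩
  have hψx : star x ⬝ᵥ ψ = 0 := by
    rw [star_dotProduct, hxψ, star_zero]
  have hHx : H *ᵥ φ = H *ᵥ x := by rw [hxdef, mulVec_sub, mulVec_smul, hHψ, smul_zero, sub_zero]
  have hE : (star φ ⬝ᵥ (H *ᵥ φ)).re = (star x ⬝ᵥ (H *ᵥ x)).re := by
    have : star ψ ⬝ᵥ (H *ᵥ x) = 0 := by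
      rw [dotProduct_mulVec, ← hherm.eq, ← star_mulVec, hHψ, star_zero, zero_dotProduct]
    rw [hHx, show φ = x + a • ψ by rw [hxdef, sub_add_cancel], star_add, add_dotProduct,
      star_smul, smul_dotProduct, this, smul_zero, add_zero]
  have hN : nsq φ - ‖star ψ ⬝ᵥ φ‖ ^ 2 / r = nsq x := by
    have hφx : φ = x + a • ψ := by rw [hxdef, sub_add_cancel]
    have h : (nsq φ : ℂ) = (nsq x : ℂ) + ((Complex.normSq a * r : ℝ) : ℂ) := by
      rw [← star_dot_self φ, ← star_dot_self x, hφx, star_add, star_smul, add_dotProduct,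
        dotProduct_add, dotProduct_add, smul_dotProduct, smul_dotProduct, dotProduct_smul,
        dotProduct_smul, hxψ, hψx, hψψ]
      simp only [smul_eq_mul, mul_zero, add_zero, zero_add, Complex.star_def]
      rw [← mul_assoc, ← Complex.normSq_eq_conj_mul_self]
      push_cast
      rfl
    have h' : nsq φ = nsq x + Complex.normSq a * r := by exact_mod_cast h
    rw [h', hadef, map_div₀, Complex.normSq_eq_norm_sq, Complex.normSq_ofReal]
    field_simp
    ring
  have hmain : (1 - c) * nsq x ≤ (star x ⬝ᵥ (H *ᵥ x)).re := by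
    let y : V := ⟨WithLp.toLp 2 x, hxV⟩
    have h1 : (star x ⬝ᵥ (H *ᵥ x)).re = ∑ i, ev i * ‖inner ℂ (b i) y‖ ^ 2 := by
      have h2 : inner ℂ y (T.restrict hTV y) = star x ⬝ᵥ (H *ᵥ x) := by
        show inner ℂ (WithLp.toLp 2 x) (T (WithLp.toLp 2 x)) = _
        rw [EuclideanSpace.inner_eq_star_dotProduct, dotProduct_comm]
        simp [T]
      rw [← h2, ← b.sum_inner_mul_inner, Complex.re_sum]
      refine Finset.sum_congr rfl fun i _ => ?_
      rw [← hTr (b i) y, hTr.apply_eigenvectorBasis rfl i, inner_smul_left]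
      rw [RCLike.conj_ofReal, mul_left_comm, ← inner_conj_symm, RCLike.conj_mul]
      rw [RCLike.ofReal_eq_complex_ofReal]
      norm_cast
    have h3 : nsq x = ∑ i, ‖inner ℂ (b i) y‖ ^ 2 := by
      rw [b.sum_sq_norm_inner_right]
      show nsq x = ‖WithLp.toLp 2 x‖ ^ 2
      rw [EuclideanSpace.norm_sq_eq]
      rfl
    rw [h1, h3, Finset.mul_sum]
    exact Finset.sum_le_sum fun i _ => mul_le_mul_of_nonneg_right (hev i) (by positivity)
  show (1 - c) * (nsq φ - ‖star ψ ⬝ᵥ φ‖ ^ 2 / r) ≤ _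
  rw [hN, hE]
  exact hmain

end

end Vale.Agent.P359.Gap
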